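import Vale.Agent.P280Z.Mp.Bf0
import Mathlib.Analysis.Analytic.Polynomial

/-!
# P280, binary forms: analysis
-/

open scoped ContDiff Topology Matrix Matrix.Norms.Elementwise
open Set Filter
open Vale.Agent.P272.K

noncomputable section

namespace Vale.Agent.P280Z.Mp

variable {d N r e : ℕ} {E : Type} [NormedAddCommGroup E] [NormedSpace ℂ E]

theorem an_ev : ContDiff ℂ ω fun q : BF d N × Cm 2 => ev q.1 q.2 := by
  unfold ev
  fun_prop

theorem an_ev' {a : E → BF d N} {z : E → Cm 2} {x : E} (ha : ContDiffAt ℂ ω a x)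
    (hz : ContDiffAt ℂ ω z x) : ContDiffAt ℂ ω (fun y => ev (a y) (z y)) x :=
  ContDiffAt.comp (g := fun q : BF d N × Cm 2 => ev q.1 q.2) (f := fun y => (a y, z y)) x
    an_ev.contDiffAt (ha.prodMk hz)

theorem an_ev2 (a : BF d N) : ContDiff ℂ ω (ev a) :=
  contDiff_iff_contDiffAt.2 fun _ => an_ev' (a := fun _ => a) (z := fun y => y) contDiffAt_const
    contDiffAt_id

theorem an_co {φ : E → Cm 2 → Cm N} {x : E} (h : ∀ z, ContDiffAt ℂ ω (fun y => φ y z) x) :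
    ContDiffAt ℂ ω (fun y => co d (φ y)) x :=
  contDiffAt_pi.2 fun _ => ContDiffAt.sum fun _ _ => (h _).const_smul _

theorem an_ent (i j : Fin 2) : ContDiff ℂ ω fun g : M2 => g i j :=
  contDiff_pi.1 (contDiff_pi.1 (contDiff_id (E := Fin 2 → Fin 2 → ℂ)) i) j

theorem an_mat {g : E → M2} {x : E} (h : ∀ i j, ContDiffAt ℂ ω (fun y => g y i j) x) :
    ContDiffAt ℂ ω g x :=
  (contDiffAt_pi (Φ := fun y => (g y : Fin 2 → Fin 2 → ℂ))).2 fun i => contDiffAt_pi.2 fun j => h i j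

theorem an_mv : ContDiff ℂ ω fun q : M2 × Cm 2 => q.1 *ᵥ q.2 := contDiff_pi.2 fun i => by
  show ContDiff ℂ ω fun q : M2 × Cm 2 => ∑ j, q.1 i j * q.2 j
  exact ContDiff.sum fun j _ => ((an_ent i j).comp contDiff_fst).mul (contDiff_pi.1 contDiff_snd j)

theorem an_mv' {g : E → M2} {z : E → Cm 2} {x : E} (hg : ContDiffAt ℂ ω g x)
    (hz : ContDiffAt ℂ ω z x) : ContDiffAt ℂ ω (fun y => g y *ᵥ z y) x :=
  ContDiffAt.comp (g := fun q : M2 × Cm 2 => q.1 *ᵥ q.2) (f := fun y => (g y, z y)) x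
    an_mv.contDiffAt (hg.prodMk hz)

theorem an_act : ContDiff ℂ ω fun q : BF d N × M2 => act q.1 q.2 :=
  contDiff_iff_contDiffAt.2 fun _ => an_co fun _ =>
    an_ev' contDiffAt_fst (an_mv' contDiffAt_snd contDiffAt_const)

theorem an_act' {a : E → BF d N} {g : E → M2} {x : E} (ha : ContDiffAt ℂ ω a x)
    (hg : ContDiffAt ℂ ω g x) : ContDiffAt ℂ ω (fun y => act (a y) (g y)) x :=
  ContDiffAt.comp (g := fun q : BF d N × M2 => act q.1 q.2) (f := fun y => (a y, g y)) x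
    an_act.contDiffAt (ha.prodMk hg)

/-- evaluation at `z` -/
def evL (d N : ℕ) (z : Cm 2) : BF d N →L[ℂ] Cm N :=
  LinearMap.toContinuousLinearMap ⟨⟨fun a => ev a z, fun a b => ev_add a b z⟩,
    fun c a => ev_smul c a z⟩

theorem evL_apply (a : BF d N) (z : Cm 2) : evL d N z a = ev a z := rfl

theorem fd_ev {a : E → BF d N} {x : E} (ha : DifferentiableAt ℂ a x) (z : Cm 2) (v : E) :
    fderiv ℂ (fun y => ev (a y) z) x v = ev (fderiv ℂ a x v) z :=
  congrArg (· v) ((evL d N z).hasFDerivAt.comp x ha.hasFDerivAt).fderiv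

theorem an_Pv (P : Eqs r N) : ContDiff ℂ ω (Pv P) := contDiff_pi.2 fun i =>
  contDiff_iff_contDiffAt.2 fun x =>
    (AnalyticOnNhd.eval_mvPolynomial (P i) x (mem_univ x)).contDiffAt

theorem an_Jm (P : Eqs r N) (i : Fin r) (j : Fin N) : ContDiff ℂ ω fun x => Jm P x i j :=
  contDiff_iff_contDiffAt.2 fun x =>
    (AnalyticOnNhd.eval_mvPolynomial (MvPolynomial.pderiv j (P i)) x (mem_univ x)).contDiffAt

theorem fd_eval (Q : MvPolynomial (Fin N) ℂ) (x v : Cm N) :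
    fderiv ℂ (fun y => MvPolynomial.eval y Q) x v =
      ∑ j, MvPolynomial.eval x (MvPolynomial.pderiv j Q) * v j := by
  have hd : ∀ Q : MvPolynomial (Fin N) ℂ, DifferentiableAt ℂ (fun y => MvPolynomial.eval y Q) x :=
    fun Q => (AnalyticOnNhd.eval_mvPolynomial Q x (mem_univ x)).differentiableAt
  induction Q using MvPolynomial.induction_on with
  | C c => simp
  | add p q hp hq =>
    simp only [map_add, add_mul, Finset.sum_add_distrib]
    rw [fderiv_fun_add (hd p) (hd q), add_apply, hp, hq]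
  | mul_X p k hp =>
    simp only [map_mul, MvPolynomial.eval_X, Derivation.leibniz, MvPolynomial.pderiv_X, smul_eq_mul,
      map_add, add_mul, Finset.sum_add_distrib]
    rw [fderiv_fun_mul (hd p) (differentiableAt_apply k x), add_apply, smul_apply, smul_apply, hp,
      (hasFDerivAt_apply k x).fderiv, ContinuousLinearMap.proj_apply, smul_eq_mul, smul_eq_mul,
      Finset.mul_sum]
    congr 1
    · rw [Finset.sum_eq_single k (fun j _ hj => by simp [Ne.symm hj])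
        fun h => absurd (Finset.mem_univ _) h]
      simp
    · simp [mul_assoc]

theorem fd_Pv (P : Eqs r N) (x v : Cm N) : fderiv ℂ (Pv P) x v = Jm P x *ᵥ v := by
  funext i
  have h := fderiv_pi (𝕜 := ℂ) (φ := fun i y => MvPolynomial.eval y (P i)) (x := x) fun i =>
    (AnalyticOnNhd.eval_mvPolynomial (P i) x (mem_univ x)).differentiableAt
  exact (congrFun (congrArg (· v) h) i).trans (fd_eval (P i) x v)

theorem fd_Pv' (P : Eqs r N) {φ : E → Cm N} {x : E} (h : DifferentiableAt ℂ φ x) (v : E) :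
    fderiv ℂ (fun y => Pv P (φ y)) x v = Jm P (φ x) *ᵥ fderiv ℂ φ x v := by
  rw [← fd_Pv]
  exact congrArg (· v) (fderiv_comp x (((an_Pv P).differentiable (by simp)) _) h)

theorem an_Psi (P : Eqs r N) (e : ℕ) : ContDiff ℂ ω (Psi P e : BF d N → BF (d * e) r) :=
  contDiff_iff_contDiffAt.2 fun x => an_co fun _ =>
    (an_Pv P).contDiffAt.comp x (an_ev' contDiffAt_id contDiffAt_const)

theorem ev_fd_Psi {P : Eqs r N} (hP : Hom P e) (a b : BF d N) (z : Cm 2) :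
    ev (fderiv ℂ (Psi P e) a b) z = Jm P (ev a z) *ᵥ ev b z := by
  rw [← fd_ev ((an_Psi P e).differentiable (by simp) a)]
  simp only [ev_Psi hP]
  rw [fd_Pv' P (φ := fun y => ev y z) (evL d N z).differentiableAt]
  exact congrArg _ (congrArg (· b) (evL d N z).fderiv)

theorem ev_dPsi {P : Eqs r N} (hP : Hom P e) (a b : BF d N) (z : Cm 2) :
    ev (dPsi P e a b) z = Jm P (ev a z) *ᵥ ev b z :=
  Hm.ev_co ⟨_, fun z => (ev_fd_Psi hP a b z).symm⟩ z

theorem fd_Psi {P : Eqs r N} (hP : Hom P e) (a b : BF d N) :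
    fderiv ℂ (Psi P e) a b = dPsi P e a b :=
  ev_inj fun z => (ev_fd_Psi hP a b z).trans (ev_dPsi hP a b z).symm

theorem mem_Tg {P : Eqs r N} (hP : Hom P e) {a b : BF d N} : b ∈ Tg P a ↔ dPsi P e a b = 0 :=
  ⟨fun h => ev_inj fun z => by rw [ev_dPsi hP, ev_zero, h z],
    fun h z => by rw [← ev_dPsi hP, h, ev_zero]⟩

theorem ev_fd_act (a b : BF d N) (ξ : M2) (z : Cm 2) :
    ev (fderiv ℂ (fun q : BF d N × M2 => act q.1 q.2) (a, 1) (b, ξ)) z =
      ev b z + fderiv ℂ (ev a) z (ξ *ᵥ z) := by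
  refine (fd_ev (a := fun q : BF d N × M2 => act q.1 q.2) (an_act.differentiable (by simp) _) z
    (b, ξ)).symm.trans ?_
  simp only [ev_act]
  let L : M2 →L[ℂ] Cm 2 := LinearMap.toContinuousLinearMap
    ⟨⟨fun g => g *ᵥ z, fun g g' => Matrix.add_mulVec g g' z⟩, fun c g => Matrix.smul_mulVec c g z⟩
  have h1 : HasFDerivAt (fun q : BF d N × M2 => (q.1, q.2 *ᵥ z))
      ((ContinuousLinearMap.id ℂ _).prodMap L) (a, 1) :=
    ((ContinuousLinearMap.id ℂ (BF d N)).prodMap L).hasFDerivAt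
  have h2 := (an_ev (d := d) (N := N)).differentiable (by simp) (a, (1 : M2) *ᵥ z)
  have h3 := congrArg (· (b, ξ)) (h2.hasFDerivAt.comp (a, (1 : M2)) h1).fderiv
  refine h3.trans ?_
  rw [Matrix.one_mulVec] at h2 ⊢
  have h4 := congrArg (· b) (HasFDerivAt.comp (f := fun e => (e, z)) a h2.hasFDerivAt
    (hasFDerivAt_prodMk_left a z)).fderiv
  have h5 := congrArg (· (ξ *ᵥ z)) (HasFDerivAt.comp (f := fun e => (a, e)) z h2.hasFDerivAt
    (hasFDerivAt_prodMk_right a z)).fderiv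
  have h6 := congrArg (· b) ((evL d N z).fderiv (x := a))
  refine Eq.trans ?_ (congrArg₂ (· + ·) (h4.symm.trans h6) h5.symm)
  show fderiv ℂ _ (a, z) (b, ξ *ᵥ z) = fderiv ℂ _ (a, z) (b, 0) + fderiv ℂ _ (a, z) (0, ξ *ᵥ z)
  rw [← map_add, Prod.mk_add_mk, add_zero, zero_add]

theorem ev_inf (a : BF d N) (ξ : M2) (z : Cm 2) :
    ev (inf a ξ) z = fderiv ℂ (ev a) z (ξ *ᵥ z) :=
  Hm.ev_co ⟨_, fun z => by rw [ev_fd_act a 0 ξ z, ev_zero, zero_add]⟩ z

theorem fd_act (a b : BF d N) (ξ : M2) :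
    fderiv ℂ (fun q : BF d N × M2 => act q.1 q.2) (a, 1) (b, ξ) = b + inf a ξ :=
  ev_inj fun z => by rw [ev_fd_act, ev_add, ev_inf]

/-- the infinitesimal substitution as a linear map -/
def infL (a : BF d N) : M2 →ₗ[ℂ] BF d N where
  toFun := inf a
  map_add' ξ η := ev_inj fun z => by rw [ev_add, ev_inf, ev_inf, ev_inf, Matrix.add_mulVec, map_add]
  map_smul' c ξ := ev_inj fun z => by
    rw [RingHom.id_apply, ev_smul, ev_inf, ev_inf, Matrix.smul_mulVec, map_smul]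

/-- the identity of Euler -/
theorem euler (a : BF d N) (z : Cm 2) : fderiv ℂ (ev a) z z = (d : ℂ) • ev a z := by
  have h1 : HasDerivAt (fun c : ℂ => ev a (c • z)) (fderiv ℂ (ev a) z z) 1 := by
    have h := ((an_ev2 a).differentiable (by simp) ((1 : ℂ) • z)).hasFDerivAt.comp_hasDerivAt 1
      ((hasDerivAt_id (1 : ℂ)).smul_const z)
    rw [one_smul] at h
    exact h
  simp only [ev_arg] at h1
  simpa using h1.unique ((hasDerivAt_pow d (1 : ℂ)).smul_const (ev a z))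

theorem inf_mem {P : Eqs r N} {a : BF d N} (h : ∀ z, Pv P (ev a z) = 0) (ξ : M2) :
    inf a ξ ∈ Tg P a := fun z => by
  rw [ev_inf, ← fd_Pv' P ((an_ev2 a).differentiable (by simp) z)]
  simp [h]

theorem Crv.nz {P : Eqs r N} {a : BF d N} (h : Crv P a) : Nz a := fun z hz => (h z hz).1

theorem Crv.pv {P : Eqs r N} (hP : Hom P e) {a : BF d N} (h : Crv P a) (z : Cm 2) :
    Pv P (ev a z) = 0 :=
  (hm_lin 1 0).cancel ⟨![1, 0], by simp⟩ (hm_Pv hP (hm_ev a)) (fun z => by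
    by_cases hz : z = 0
    · simp [hz]
    · rw [(h z hz).2, smul_zero]) z

theorem Crv.psi {P : Eqs r N} (hP : Hom P e) {a : BF d N} (h : Crv P a) : Psi P e a = 0 :=
  ev_inj fun z => by rw [ev_Psi hP, h.pv hP, ev_zero]

theorem Nz.act {W : Type} [AddCommGroup W] [Module ℂ W] {a : Fin (d + 1) → W} (h : Nz a) {g : M2}
    (hg : g.det ≠ 0) : Nz (act a g) := fun z hz => by
  rw [ev_act]
  exact h _ fun e => hg (Matrix.exists_mulVec_eq_zero_iff.1 ⟨z, hz, e⟩)

theorem Crv.act {P : Eqs r N} {a : BF d N} (h : Crv P a) {g : M2} (hg : g.det ≠ 0) :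
    Crv P (act a g) := fun z hz => by
  rw [ev_act]
  exact h _ fun e => hg (Matrix.exists_mulVec_eq_zero_iff.1 ⟨z, hz, e⟩)

theorem det_ne {a : BF d N} {g : M2} (hd : 0 < d) (h : Nz (act a g)) : g.det ≠ 0 := fun e => by
  obtain ⟨z, hz, e'⟩ := Matrix.exists_mulVec_eq_zero_iff.2 e
  refine h z hz ?_
  rw [ev_act, e', ← zero_smul ℂ (0 : Cm 2), ev_arg, zero_pow hd.ne', zero_smul]

theorem nz_bound {a : BF d N} (h : Nz a) : ∃ m M : ℝ, 0 < m ∧ ∀ᶠ b : BF d N in 𝓝 a, ∀ z,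
    m * ‖z‖ ^ d ≤ ‖ev b z‖ ∧ ‖ev b z‖ ≤ M * ‖z‖ ^ d := by
  have hS := isCompact_sphere (0 : Cm 2) 1
  have hn : (Metric.sphere (0 : Cm 2) 1).Nonempty := NormedSpace.sphere_nonempty.2 zero_le_one
  have hc : Continuous fun z => ‖ev a z‖ := (an_ev2 a).continuous.norm
  obtain ⟨z0, h0, h1⟩ := hS.exists_isMinOn hn hc.continuousOn
  obtain ⟨z1, -, h2⟩ := hS.exists_isMaxOn hn hc.continuousOn
  have h3 : 0 < ‖ev a z0‖ := norm_pos_iff.2 (h z0 fun e => by simp [e] at h0)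
  have hc2 : Continuous fun q : BF d N × Cm 2 => ‖ev q.1 q.2‖ := an_ev.continuous.norm
  refine ⟨‖ev a z0‖ / 2, ‖ev a z1‖ + 1, half_pos h3, ?_⟩
  filter_upwards [hS.eventually_forall_of_forall_eventually (x₀ := a)
    (P := fun b z => ‖ev a z0‖ / 2 < ‖ev b z‖ ∧ ‖ev b z‖ < ‖ev a z1‖ + 1) fun z hz =>
      ((hc2.tendsto (a, z)).eventually (p := fun t => ‖ev a z0‖ / 2 < t)
        (lt_mem_nhds ((half_lt_self h3).trans_le (h1 hz)))).and
        ((hc2.tendsto (a, z)).eventually (p := fun t => t < ‖ev a z1‖ + 1)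
          (gt_mem_nhds (lt_add_of_le_of_pos (h2 hz) one_pos)))] with b hb z
  obtain ⟨u, hu, e⟩ : ∃ u ∈ Metric.sphere (0 : Cm 2) 1, z = (‖z‖ : ℂ) • u := by
    by_cases hz : z = 0
    · exact ⟨z0, h0, by simp [hz]⟩
    · have h4 : (‖z‖ : ℂ) ≠ 0 := by simpa using hz
      exact ⟨(‖z‖ : ℂ)⁻¹ • z, by simp [norm_smul, hz], by rw [smul_inv_smul₀ h4]⟩
  have h5 : ‖ev b z‖ = ‖ev b u‖ * ‖z‖ ^ d := by
    conv_lhs => rw [e, ev_arg, norm_smul, norm_pow, Complex.norm_real, norm_norm, mul_comm]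
  rw [h5]
  exact ⟨mul_le_mul_of_nonneg_right (hb u hu).1.le (by positivity),
    mul_le_mul_of_nonneg_right (hb u hu).2.le (by positivity)⟩

theorem Nz.near {a : BF d N} (h : Nz a) : ∀ᶠ b : BF d N in 𝓝 a, Nz b := by
  obtain ⟨m, M, hm, h1⟩ := nz_bound h
  filter_upwards [h1] with b hb z hz
  exact norm_pos_iff.1 ((mul_pos hm (pow_pos (norm_pos_iff.2 hz) d)).trans_le (hb z).1)

end Vale.Agent.P280Z.Mp
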