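import Vale.Agent.P280Z.Mp.Bf0
import Mathlib.LinearAlgebra.Eigenspace.Triangularizable
import Mathlib.Analysis.Complex.Polynomial.Basic
import Mathlib.Analysis.Calculus.MeanValue

/-!
# P280, row FREE: the action is free up to roots of unity
-/

open scoped Topology Matrix
open Set Filter
open Vale.Agent.P272.K

noncomputable section

namespace Vale.Agent.P280Z.Mp

namespace Free

variable {d N : ℕ}

theorem diff_ev (a : BF d N) : Differentiable ℂ (ev a) := by
  unfold ev
  fun_prop

theorem hm_fd (a : BF d N) (ξ : M2) : Hm d fun z => fderiv ℂ (ev a) z (ξ *ᵥ z) := by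
  have hp : ∀ k : Fin 2, Hm 1 fun z : Cm 2 => z k := fun k =>
    (hm_mv (1 : M2) k).congr fun z => by rw [Matrix.one_mulVec]
  have hq : ∀ (m : ℕ) (k : Fin 2), Hm m fun z : Cm 2 => ((m : ℂ) * z k ^ (m - 1)) * (ξ *ᵥ z) k := by
    intro m k
    rcases m with _ | m
    · exact Hm.zero.congr fun z => by simp
    · exact ((Hm.smul ((m + 1 : ℕ) : ℂ) (((hp k).pow m).mul (hm_mv ξ k))).cast
        (by omega)).congr fun z => by simp [mul_assoc]
  refine (Hm.sum Finset.univ fun (i : Fin (d + 1)) _ => ((((((hp 0).pow (d - i.val)).mul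
    (hq i.val 1)).cast (d' := d) (by omega)).add (((((hp 1).pow i.val).mul
      (hq (d - i.val) 0))).cast (d' := d) (by omega))).mul (Hm.const (a i)))).congr fun z => ?_
  have h : ∀ (m : ℕ) (k : Fin 2), HasFDerivAt (fun z : Cm 2 => z k ^ m) _ z := fun m k =>
    (hasFDerivAt_apply (𝕜 := ℂ) k z).pow m
  have h1 := HasFDerivAt.fun_sum (u := Finset.univ) fun (i : Fin (d + 1)) _ =>
    ((h (d - i.val) 0).fun_mul (h i.val 1)).smul_const (a i)
  unfold ev
  rw [h1.fderiv]
  simp [mul_assoc]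

theorem ev_inf (a : BF d N) (ξ : M2) (z : Cm 2) :
    ev (inf a ξ) z = fderiv ℂ (ev a) z (ξ *ᵥ z) := (hm_fd a ξ).ev_co z

/-- every matrix is triangular in a suitable basis -/
theorem tri (g : M2) : ∃ (y w : Cm 2) (α β s : ℂ), lf y w ≠ 0 ∧ g *ᵥ y = α • y ∧
    g *ᵥ w = s • y + β • w ∧ (s = 0 ∨ β = α) := by
  obtain ⟨α, hα⟩ := Module.End.exists_eigenvalue (Matrix.toLin' g)
  obtain ⟨y, hy⟩ := hα.exists_hasEigenvector
  have h1 : g *ᵥ y = α • y := hy.apply_eq_smul
  obtain ⟨w, hw⟩ : ∃ w, lf y w ≠ 0 := by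
    by_contra h
    push Not at h
    have a1 := h ![1, 0]
    have a2 := h ![0, 1]
    simp [lf] at a1 a2
    refine hy.2 (funext fun i => ?_)
    fin_cases i
    · exact a2
    · exact a1
  obtain ⟨s, β, h2⟩ : ∃ s β : ℂ, g *ᵥ w = s • y + β • w := by
    refine ⟨lf (g *ᵥ w) w / lf y w, lf y (g *ᵥ w) / lf y w, funext fun i => ?_⟩
    simp only [Pi.add_apply, Pi.smul_apply, smul_eq_mul]
    field_simp
    fin_cases i <;> simp [lf] <;> ring
  by_cases h : β = α
  · exact ⟨y, w, α, β, s, hw, h1, h2, Or.inr h⟩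
  · have h3 : β - α ≠ 0 := sub_ne_zero.2 h
    refine ⟨y, w + (s / (β - α)) • y, α, β, 0, ?_, h1, ?_, Or.inl rfl⟩
    · refine fun h4 => hw (Eq.trans ?_ h4)
      simp only [lf, Pi.add_apply, Pi.smul_apply, smul_eq_mul]
      ring
    · rw [Matrix.mulVec_add, Matrix.mulVec_smul, h1, h2]
      funext i
      simp only [Pi.add_apply, Pi.smul_apply, smul_eq_mul]
      field_simp
      ring

theorem ne_left {y w : Cm 2} (h : lf y w ≠ 0) : y ≠ 0 := by
  rintro rfl
  simp [lf] at h

theorem ne_right {y w : Cm 2} (h : lf y w ≠ 0) : w ≠ 0 := by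
  rintro rfl
  simp [lf] at h

theorem eq_of_basis {y w : Cm 2} (h : lf y w ≠ 0) {g : M2} {c : ℂ} (h1 : g *ᵥ y = c • y)
    (h2 : g *ᵥ w = c • w) : g = c • (1 : M2) := by
  refine Matrix.toLin'.injective (LinearMap.ext fun z => ?_)
  have h3 : z = (lf z w / lf y w) • y + (lf y z / lf y w) • w := by
    funext i
    simp only [Pi.add_apply, Pi.smul_apply, smul_eq_mul]
    field_simp
    fin_cases i <;> simp [lf] <;> ring
  rw [Matrix.toLin'_apply, Matrix.toLin'_apply, Matrix.smul_mulVec, Matrix.one_mulVec, h3,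
    Matrix.mulVec_add, Matrix.mulVec_smul, Matrix.mulVec_smul, h1, h2, smul_add, smul_comm c,
    smul_comm c]

/-- a form that is periodic along `y` vanishes at `y` -/
theorem nounip (hd : 0 < d) (a : BF d N) {y w : Cm 2} {s : ℂ} (hs : s ≠ 0)
    (h : ∀ k : ℕ, ev a (w + (k * s) • y) = ev a w) : ev a y = 0 := by
  have h1 : Tendsto (fun k : ℕ => ((k : ℂ) * s)⁻¹) atTop (𝓝 0) := by
    simp_rw [mul_inv]
    simpa using (tendsto_inv_atTop_nhds_zero_nat (𝕜 := ℂ)).mul_const s⁻¹
  have h2 : Continuous fun u : ℂ => ev a (u • w + y) := (diff_ev a).continuous.comp (by fun_prop)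
  have h3 : Continuous fun u : ℂ => u ^ d • ev a w := by fun_prop
  have h4 := (h2.tendsto 0).comp h1
  have h5 := (h3.tendsto 0).comp h1
  rw [zero_smul, zero_add] at h4
  rw [zero_pow hd.ne', zero_smul] at h5
  refine tendsto_nhds_unique_of_eventuallyEq h4 h5 ?_
  filter_upwards [eventually_gt_atTop 0] with k hk
  have h6 : (k : ℂ) * s ≠ 0 := mul_ne_zero (Nat.cast_ne_zero.2 hk.ne') hs
  simp only [Function.comp]
  rw [← h k, ← ev_arg, smul_add, smul_smul, inv_mul_cancel₀ h6, one_smul]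

theorem line_deriv (a : BF d N) (w y : Cm 2) (t : ℂ) :
    HasDerivAt (fun t : ℂ => ev a (w + t • y)) (fderiv ℂ (ev a) (w + t • y) y) t := by
  have h1 : HasDerivAt (fun t : ℂ => w + t • y) y t := by
    simpa using ((hasDerivAt_id t).smul_const y).const_add w
  exact (diff_ev a _).hasFDerivAt.comp_hasDerivAt t h1

theorem euler (a : BF d N) (y : Cm 2) : fderiv ℂ (ev a) y y = (d : ℂ) • ev a y := by
  have h1 := line_deriv a 0 y 1
  simp only [zero_add, one_smul, ev_arg] at h1
  have h2 := (hasDerivAt_pow d (1 : ℂ)).smul_const (ev a y)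
  rw [one_pow, mul_one] at h2
  exact h1.unique h2

theorem part1 (hd : 0 < d) {a : BF d N} (ha : Nz a) {ξ : M2}
    (h : ∀ z, fderiv ℂ (ev a) z (ξ *ᵥ z) = 0) : ξ = 0 := by
  have he : ∀ (y : Cm 2) (μ : ℂ), y ≠ 0 → ξ *ᵥ y = μ • y → μ = 0 := by
    intro y μ hy h1
    have h2 := h y
    rw [h1, map_smul, euler, smul_smul] at h2
    exact (mul_eq_zero.1 ((smul_eq_zero.1 h2).resolve_right (ha y hy))).resolve_right
      (Nat.cast_ne_zero.2 hd.ne')
  obtain ⟨y, w, α, β, s, h0, h1, h2, h3⟩ := tri ξ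
  obtain rfl := he y α (ne_left h0) h1
  by_cases hs : s = 0
  · rw [hs, zero_smul, zero_add] at h2
    obtain rfl := he w β (ne_right h0) h2
    rw [eq_of_basis h0 h1 h2, zero_smul]
  · obtain rfl := h3.resolve_left hs
    refine (ha y (ne_left h0) (nounip hd a (w := w) one_ne_zero fun k => ?_)).elim
    have h4 : ∀ t : ℂ, HasDerivAt (fun t : ℂ => ev a (w + t • y)) 0 t := by
      intro t
      have h5 := h (w + t • y)
      rw [Matrix.mulVec_add, Matrix.mulVec_smul, h1, h2, zero_smul, zero_smul, smul_zero, add_zero,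
        add_zero, map_smul] at h5
      rw [← (smul_eq_zero.1 h5).resolve_left hs]
      exact line_deriv a w y t
    have h5 := is_const_of_deriv_eq_zero (fun t => (h4 t).differentiableAt)
      (fun t => (h4 t).deriv) (k * 1) 0
    simpa using h5

/-- a form that is invariant under a nonscalar diagonal matrix comes from a lower degree -/
theorem descend (hd : 0 < d) (a : BF d N) {α β : ℂ} (hα : α ^ d = 1) (hβ : β ^ d = 1)
    (hne : β ≠ α) (h : ∀ z : Cm 2, ev a ![α * z 0, β * z 1] = ev a z) :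
    ∃ d', 0 < d' ∧ d' < d ∧ ∃ b : BF d' N, ∀ z, z ≠ 0 → ∃ z', z' ≠ 0 ∧ ev b z = ev a z' := by
  have hα0 : α ≠ 0 := by
    rintro rfl
    rw [zero_pow hd.ne'] at hα
    exact zero_ne_one hα
  set ζ := β / α with hζ
  have h1 : (fun i : Fin (d + 1) => ζ ^ i.val • a i) = a := by
    refine ev_inj fun z => Eq.trans ?_ (h z)
    unfold ev
    refine Finset.sum_congr rfl fun i _ => ?_
    rw [smul_smul]
    congr 1
    have h2 : α ^ (d - i.val) * α ^ i.val = 1 := by
      rw [← pow_add, ← hα]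
      congr 1
      have := i.2
      omega
    have h3 : β = ζ * α := by rw [hζ, div_mul_cancel₀ _ hα0]
    simp only [Matrix.cons_val_zero, Matrix.cons_val_one, mul_pow]
    rw [h3, mul_pow]
    linear_combination (-(z 0 ^ (d - i.val) * z 1 ^ i.val * ζ ^ i.val)) * h2
  have h2 : ζ ^ d = 1 := by rw [hζ, div_pow, hα, hβ, div_one]
  obtain ⟨d', hd'⟩ := orderOf_dvd_of_pow_eq_one h2
  set m := orderOf ζ with hm
  have hm0 : 0 < m := Nat.pos_of_mul_pos_right (hd' ▸ hd)
  have hd0 : 0 < d' := Nat.pos_of_mul_pos_left (hd' ▸ hd)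
  have hm1 : m ≠ 1 := fun h3 => hne ((div_eq_one_iff_eq hα0).1 (orderOf_eq_one_iff.1 h3))
  have hlt : d' < d := by
    rw [hd']
    exact lt_mul_of_one_lt_left hd0 (by omega)
  let e : Fin (d' + 1) → Fin (d + 1) := fun j => ⟨m * j.val, by
    rw [hd']
    exact Nat.lt_succ_of_le (Nat.mul_le_mul_left m (Nat.lt_succ_iff.1 j.2))⟩
  refine ⟨d', hd0, hlt, fun j => a (e j), fun z hz => ?_⟩
  choose z' hz' using fun i => IsAlgClosed.exists_pow_nat_eq (z i) hm0
  refine ⟨z', fun h3 => hz (funext fun i => ?_), ?_⟩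
  · rw [← hz' i, h3]
    exact zero_pow hm0.ne'
  · unfold ev
    refine Fintype.sum_of_injective e (fun i j h3 => ?_) _ _ (fun i hi => ?_) fun j => ?_
    · exact Fin.ext (Nat.eq_of_mul_eq_mul_left hm0 (congrArg Fin.val h3))
    · have h3 : ζ ^ i.val ≠ 1 := by
        intro h4
        obtain ⟨j, hj⟩ := orderOf_dvd_of_pow_eq_one h4
        have h5 : j < d' + 1 := by
          refine Nat.lt_succ_of_le (Nat.le_of_mul_le_mul_left ?_ hm0)
          rw [← hj, ← hd']
          exact Nat.lt_succ_iff.1 i.2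
        exact hi ⟨⟨j, h5⟩, Fin.ext hj.symm⟩
      have h4 : (ζ ^ i.val - 1) • a i = 0 := by
        rw [sub_smul, one_smul, sub_eq_zero]
        exact congrFun h1 i
      rw [(smul_eq_zero.1 h4).resolve_left (sub_ne_zero.2 h3), smul_zero]
    · congr 1
      have h3 : d - m * j.val = m * (d' - j.val) := by rw [Nat.mul_sub, ← hd']
      show _ = z' 0 ^ (d - m * j.val) * z' 1 ^ (m * j.val)
      rw [h3, pow_mul, pow_mul, hz', hz']

end Free

theorem free : FREE := by
  intro d N r P a hd ha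
  have hz : Nz a := fun z h => (ha z h).1
  refine ⟨fun ξ h => Free.part1 hd hz fun z => ?_, fun hL g h => ?_⟩
  · rw [← Free.ev_inf, h]
    simp [ev]
  have hg : ∀ z, ev a (g *ᵥ z) = ev a z := fun z => by rw [← ev_act, h]
  have he : ∀ (y : Cm 2) (μ : ℂ), y ≠ 0 → g *ᵥ y = μ • y → μ ^ d = 1 := by
    intro y μ hy h1
    have h2 := hg y
    rw [h1, ev_arg, ← sub_eq_zero] at h2
    nth_rw 2 [← one_smul ℂ (ev a y)] at h2
    rw [← sub_smul] at h2
    exact sub_eq_zero.1 ((smul_eq_zero.1 h2).resolve_right (hz y hy))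
  obtain ⟨y, w, α, β, s, h0, h1, h2, h3⟩ := Free.tri g
  have hα := he y α (Free.ne_left h0) h1
  have hα0 : α ≠ 0 := by
    rintro rfl
    rw [zero_pow hd.ne'] at hα
    exact zero_ne_one hα
  by_cases hs : s = 0
  · rw [hs, zero_smul, zero_add] at h2
    by_cases hβ : β = α
    · exact ⟨α, hα, Free.eq_of_basis h0 h1 (hβ ▸ h2)⟩
    · exfalso
      let H : M2 := Matrix.of fun i j => ![y i, w i] j
      have hH : ∀ z : Cm 2, H *ᵥ z = z 0 • y + z 1 • w := by
        intro z
        funext i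
        simp [H, Matrix.mulVec, dotProduct, Fin.sum_univ_two, mul_comm]
      obtain ⟨d', a1, a2, b, hb⟩ := Free.descend hd (act a H) hα (he w β (Free.ne_right h0) h2) hβ
        fun z => by
          rw [ev_act, ev_act, ← hg (H *ᵥ z), hH, hH, Matrix.mulVec_add, Matrix.mulVec_smul,
            Matrix.mulVec_smul, h1, h2, smul_smul, smul_smul, mul_comm (z 0), mul_comm (z 1)]
          rfl
      refine hL d' a1 a2 b fun z hz0 => ?_
      obtain ⟨z', hz', h4⟩ := hb z hz0
      rw [h4, ev_act]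
      refine ha _ fun h5 => hz' ?_
      rw [hH] at h5
      have b0 := congrFun h5 0
      have b1 := congrFun h5 1
      simp only [Pi.add_apply, Pi.smul_apply, smul_eq_mul, Pi.zero_apply] at b0 b1
      have c0 : z' 0 * lf y w = 0 := by
        unfold lf
        linear_combination w 1 * b0 - w 0 * b1
      have c1 : z' 1 * lf y w = 0 := by
        unfold lf
        linear_combination y 0 * b1 - y 1 * b0
      funext i
      fin_cases i
      · exact (mul_eq_zero.1 c0).resolve_right h0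
      · exact (mul_eq_zero.1 c1).resolve_right h0
  · obtain rfl := h3.resolve_left hs
    refine (hz y (Free.ne_left h0) (Free.nounip hd a (w := w) (div_ne_zero hs hα0) fun k => ?_)).elim
    induction k with
    | zero => simp
    | succ k ih =>
      rw [← ih, ← hg (w + (k * (s / β)) • y)]
      have h4 : g *ᵥ (w + (k * (s / β)) • y) = β • (w + (((k + 1 : ℕ) : ℂ) * (s / β)) • y) := by
        rw [Matrix.mulVec_add, Matrix.mulVec_smul, h1, h2]
        funext i
        simp only [Pi.add_apply, Pi.smul_apply, smul_eq_mul]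
        push_cast
        field_simp
        ring
      rw [h4, ev_arg, hα, one_smul]

end Vale.Agent.P280Z.Mp
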