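import Vale.Agent.P280Z.Mp.Sk

/-!
# P280, row TUB: the tangent space of the cone, the equations near the cone
-/

open scoped Manifold ContDiff Topology Matrix
open Set Filter
open Vale.Agent.P272.K Vale.Agent.P281Z

noncomputable section

namespace Vale.Agent.P280Z.Mp

namespace Tub

theorem hs_eval {N : ℕ} (p : MvPolynomial (Fin N) ℂ) (x : Cm N) :
    ∃ L : Cm N →L[ℂ] ℂ, HasStrictFDerivAt (fun y : Cm N => MvPolynomial.eval y p) L x ∧
      ∀ v, L v = ∑ j, MvPolynomial.eval x (MvPolynomial.pderiv j p) * v j := by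
  induction p using MvPolynomial.induction_on with
  | C a =>
    refine ⟨0, ?_, fun v => by simp⟩
    simp only [MvPolynomial.eval_C]
    exact hasStrictFDerivAt_const a x
  | add p q hp hq =>
    obtain ⟨L, h1, h2⟩ := hp
    obtain ⟨L', k1, k2⟩ := hq
    refine ⟨L + L', ?_, fun v => ?_⟩
    · simp only [map_add]
      exact h1.add k1
    · simp only [map_add, add_mul, Finset.sum_add_distrib, ← h2, ← k2]
      rfl
  | mul_X p i hp =>
    obtain ⟨L, h1, h2⟩ := hp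
    refine ⟨_, by
      simp only [map_mul, MvPolynomial.eval_X]
      exact h1.mul (hasStrictFDerivAt_apply i x), fun v => ?_⟩
    change MvPolynomial.eval x p * v i + x i * L v = _
    simp only [Derivation.leibniz, smul_eq_mul, map_add, map_mul, MvPolynomial.eval_X, add_mul,
      Finset.sum_add_distrib, h2, Finset.mul_sum, mul_assoc, MvPolynomial.pderiv_X]
    congr 1
    rw [Finset.sum_eq_single i (fun j _ hj => by simp [Pi.single_eq_of_ne hj.symm]) (by simp)]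
    simp

variable {N r n e : ℕ}

/-- the Jacobian as a continuous linear map -/
def JL (P : Eqs r N) (x : Cm N) : Cm N →L[ℂ] Cm r :=
  LinearMap.toContinuousLinearMap (Jm P x).mulVecLin

theorem JL_apply (P : Eqs r N) (x v : Cm N) : JL P x v = Jm P x *ᵥ v := rfl

theorem hs_Pv (P : Eqs r N) (x : Cm N) : HasStrictFDerivAt (Pv P) (JL P x) x := by
  refine hasStrictFDerivAt_pi'.2 fun i => ?_
  obtain ⟨L, h1, h2⟩ := hs_eval (P i) x
  have : (ContinuousLinearMap.proj i).comp (JL P x) = L :=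
    ContinuousLinearMap.ext fun v => (h2 v).symm
  rw [this]
  exact h1

theorem Pv_smul {P : Eqs r N} (h : Hom P e) (c : ℂ) (x : Cm N) :
    Pv P (c • x) = c ^ e • Pv P x := by
  funext i
  simp only [Pv, Pi.smul_apply, smul_eq_mul, MvPolynomial.eval_eq', Finset.mul_sum]
  refine Finset.sum_congr rfl fun m hm => ?_
  have h1 : ∑ j, m j = e := by
    rw [← Finsupp.degree_eq_sum]
    exact ((h i).degree_eq_sum_deg_support hm).symm ▸ (Finsupp.degree_apply m)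
  simp only [mul_pow, Finset.prod_mul_distrib, Finset.prod_pow_eq_pow_sum, h1]
  ring

theorem in_smul {P : Eqs r N} (h : Hom P e) {c : ℂ} (hc : c ≠ 0) {x : Cm N} (hx : In P x) :
    In P (c • x) :=
  ⟨smul_ne_zero hc hx.1, by rw [Pv_smul h, hx.2, smul_zero]⟩

/-- the values of `f` near its zero set are almost tangent to the image of the derivative -/
theorem near {E F G : Type} [NormedAddCommGroup E] [NormedSpace ℂ E] [FiniteDimensional ℂ E]
    [NormedAddCommGroup F] [NormedSpace ℂ F] [NormedAddCommGroup G] [NormedSpace ℂ G]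
    [FiniteDimensional ℂ G] {f : E → F} {J : E →L[ℂ] F} {Λ : G → E} {A : G →L[ℂ] E} {g0 : G}
    (hf : HasStrictFDerivAt f J (Λ g0)) (hΛ : HasStrictFDerivAt Λ A g0)
    (h0 : ∀ᶠ g in 𝓝 g0, f (Λ g) = 0) (hk : ∀ v, J v = 0 → ∃ g, A g = v) (φ : F →L[ℂ] ℂ)
    (hφ : ∀ v, φ (J v) = 0) {ε : ℝ} (hε : 0 < ε) :
    ∀ᶠ y in 𝓝 (Λ g0), ‖φ (f y)‖ ≤ ε * ‖f y‖ := by
  have := FiniteDimensional.complete ℂ E
  have := FiniteDimensional.complete ℂ G
  obtain ⟨S, hS⟩ := Submodule.exists_isCompl (LinearMap.ker (J : E →ₗ[ℂ] F))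
  have := FiniteDimensional.complete ℂ S
  have hY : HasStrictFDerivAt (fun p : G × S => Λ p.1 + (p.2 : E))
      (A.comp (ContinuousLinearMap.fst ℂ G S) + S.subtypeL.comp (ContinuousLinearMap.snd ℂ G S))
      (g0, 0) :=
    (HasStrictFDerivAt.comp (g0, (0 : S)) (g := Λ) hΛ hasStrictFDerivAt_fst).add
      (S.subtypeL.comp (ContinuousLinearMap.snd ℂ G S)).hasStrictFDerivAt
  have hm := hY.map_nhds_eq_of_surj (by
    refine LinearMap.range_eq_top.2 fun v => ?_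
    obtain ⟨a, ha, b, hb, rfl⟩ := Submodule.mem_sup.1 (hS.sup_eq_top ▸ Submodule.mem_top (x := v))
    obtain ⟨g, rfl⟩ := hk a ha
    exact ⟨(g, ⟨b, hb⟩), rfl⟩)
  obtain ⟨K, hK, hA⟩ := LinearMap.exists_antilipschitzWith ((J : E →ₗ[ℂ] F).comp S.subtype) (by
    rw [LinearMap.ker_comp, ← Submodule.disjoint_iff_comap_eq_bot]
    exact hS.disjoint.symm)
  have hK' : (0 : ℝ) < K := hK
  have hs : ∀ s : S, ‖(s : E)‖ ≤ K * ‖J s‖ := fun s => hA.le_mul_norm (map_zero _) s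
  obtain ⟨η, h1, h2, h3⟩ : ∃ η : ℝ, 0 < η ∧ K * η ≤ 1 / 2 ∧ ‖φ‖ * η * (2 * K) ≤ ε := by
    refine ⟨min (1 / (2 * K)) (ε / (2 * K * (‖φ‖ + 1))), by positivity, ?_, ?_⟩
    · refine (mul_le_mul_of_nonneg_left (min_le_left _ _) hK'.le).trans_eq ?_
      field_simp
    · have := min_le_right (1 / (2 * K : ℝ)) (ε / (2 * K * (‖φ‖ + 1)))
      rw [le_div_iff₀ (by positivity)] at this
      have h4 : 0 ≤ min (1 / (2 * K : ℝ)) (ε / (2 * K * (‖φ‖ + 1))) * (2 * K) := by positivity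
      linarith
  have ht : Tendsto (fun p : G × S => (Λ p.1 + (p.2 : E), Λ p.1)) (𝓝 (g0, 0)) (𝓝 (Λ g0, Λ g0)) := by
    have a := hY.continuousAt.tendsto
    simp only [ZeroMemClass.coe_zero, add_zero] at a
    exact a.prodMk_nhds (hΛ.continuousAt.tendsto.comp continuousAt_fst)
  simp only [ZeroMemClass.coe_zero, add_zero] at hm
  rw [← hm, eventually_map]
  filter_upwards [ht.eventually (hf.isLittleO.def h1),
    (continuousAt_fst (p := (g0, (0 : S)))).eventually h0] with p a b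
  simp only [b, sub_zero, add_sub_cancel_left] at a
  have c1 := hs p.2
  have c2 : ‖J p.2‖ ≤ ‖f (Λ p.1 + p.2)‖ + η * ‖(p.2 : E)‖ := by
    have := norm_sub_norm_le (J p.2) (f (Λ p.1 + p.2))
    rw [norm_sub_rev] at this
    linarith
  have c3 : ‖(p.2 : E)‖ ≤ 2 * K * ‖f (Λ p.1 + p.2)‖ := by
    have d1 := mul_le_mul_of_nonneg_left c2 hK'.le
    have d2 := mul_le_mul_of_nonneg_right h2 (norm_nonneg (p.2 : E))
    linarith
  have c4 : φ (f (Λ p.1 + p.2)) = φ (f (Λ p.1 + p.2) - J p.2) := by rw [map_sub, hφ, sub_zero]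
  rw [c4]
  calc _ ≤ ‖φ‖ * (η * (2 * K * ‖f (Λ p.1 + p.2)‖)) :=
        φ.le_of_opNorm_le_of_le le_rfl (a.trans (mul_le_mul_of_nonneg_left c3 h1.le))
    _ = ‖φ‖ * η * (2 * K) * ‖f (Λ p.1 + p.2)‖ := by ring
    _ ≤ _ := mul_le_mul_of_nonneg_right h3 (norm_nonneg _)

/-- the parametrisation of the cone -/
theorem core {V : Mf n} {P : Eqs r N} {pt : Cm N → V.X} (h : Cone V P e pt) {x : Cm N}
    (hx : In P x) {χ : Chart n V.X} (hχ : At χ (pt x)) :
    ∃ (Λ : ℂ × Cm n → Cm N) (A : (ℂ × Cm n) →L[ℂ] Cm N) (g0 : ℂ × Cm n),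
      HasStrictFDerivAt Λ A g0 ∧ Λ g0 = x ∧ (∀ c, A (c, 0) = c • x) ∧
      (∀ᶠ g in 𝓝 g0, Pv P (Λ g) = 0) ∧ (∀ v, JL P x v = 0 ↔ ∃ g, A g = v) ∧
      ∀ ρ : Cm N → Cm n, AnalyticAt ℂ ρ x → (∀ᶠ y in 𝓝 x, In P y → χ (pt y) = ρ y) →
        ∀ g, fderiv ℂ ρ x (A g) = g.2 := by
  obtain ⟨ρ0, lam, a1, a2, a3, a4, a5⟩ := h.loc x hx χ hχ
  have hΛ := (hasStrictFDerivAt_fst (𝕜 := ℂ) (p := ((1 : ℂ), χ (pt x)))).smul
    (HasStrictFDerivAt.comp ((1 : ℂ), χ (pt x)) (g := lam) a2.hasStrictFDerivAt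
      hasStrictFDerivAt_snd)
  obtain ⟨A, hA, hA'⟩ : ∃ A : (ℂ × Cm n) →L[ℂ] Cm N, HasStrictFDerivAt
      (fun g : ℂ × Cm n => g.1 • lam g.2) A (1, χ (pt x)) ∧ ∀ c, A (c, 0) = c • x :=
    ⟨_, hΛ, fun c => by simp [a3]⟩
  have h0 : (fun g : ℂ × Cm n => g.1 • lam g.2) (1, χ (pt x)) = x := by simp [a3]
  have ev : ∀ᶠ g : ℂ × Cm n in 𝓝 (1, χ (pt x)), In P (g.1 • lam g.2) ∧
      χ (pt (g.1 • lam g.2)) = g.2 := by
    filter_upwards [prod_mem_nhds (isOpen_ne.mem_nhds (one_ne_zero (α := ℂ)))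
      (a5.and (χ.open_target.mem_nhds (χ.map_source hχ.2)))] with g hg
    refine ⟨in_smul h.hom hg.1 hg.2.1.1, ?_⟩
    rw [h.smul _ _ hg.2.1.1 hg.1, hg.2.1.2, χ.right_inv hg.2.2]
  have hρ : ∀ ρ : Cm N → Cm n, AnalyticAt ℂ ρ x → (∀ᶠ y in 𝓝 x, In P y → χ (pt y) = ρ y) →
      ∀ g, fderiv ℂ ρ x (A g) = g.2 := fun ρ b1 b2 g => by
    have c1 : HasFDerivAt ρ (fderiv ℂ ρ x) ((fun g : ℂ × Cm n => g.1 • lam g.2) (1, χ (pt x))) :=
      h0.symm ▸ b1.differentiableAt.hasFDerivAt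
    have c2 := HasFDerivAt.comp (f := fun g : ℂ × Cm n => g.1 • lam g.2) _ c1 hA.hasFDerivAt
    have c3 : Tendsto (fun g : ℂ × Cm n => g.1 • lam g.2) (𝓝 (1, χ (pt x))) (𝓝 x) :=
      hA.continuousAt.tendsto.mono_right (congrArg 𝓝 h0).le
    have c4 := (hasFDerivAt_snd (𝕜 := ℂ) (p := ((1 : ℂ), χ (pt x)))).congr_of_eventuallyEq
      (f₁ := ρ ∘ fun g : ℂ × Cm n => g.1 • lam g.2) (by
        filter_upwards [ev, c3.eventually b2] with g k1 k2
        exact (k2 k1.1).symm.trans k1.2)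
    exact congrArg (fun L : (ℂ × Cm n) →L[ℂ] Cm n => L g) (c2.unique c4)
  have hJ : ∀ g, JL P x (A g) = 0 := fun g => by
    have c1 : HasFDerivAt (Pv P) (JL P x) ((fun g : ℂ × Cm n => g.1 • lam g.2) (1, χ (pt x))) :=
      h0.symm ▸ (hs_Pv P x).hasFDerivAt
    have c4 := (hasFDerivAt_const (𝕜 := ℂ) (0 : Cm r) ((1 : ℂ), χ (pt x))).congr_of_eventuallyEq
      (f₁ := Pv P ∘ fun g : ℂ × Cm n => g.1 • lam g.2) (ev.mono fun g k => k.1.2)
    exact congrArg (fun L : (ℂ × Cm n) →L[ℂ] Cm r => L g) ((HasFDerivAt.comp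
      (f := fun g : ℂ × Cm n => g.1 • lam g.2) _ c1 hA.hasFDerivAt).unique c4)
  have hi : Function.Injective (A : (ℂ × Cm n) →ₗ[ℂ] Cm N) := by
    refine (injective_iff_map_eq_zero _).2 fun g (hg : A g = 0) => ?_
    have c1 := hρ ρ0 a1 (a4.mono fun y k k' => (k k').2) g
    rw [hg, map_zero] at c1
    obtain ⟨c, η⟩ := g
    obtain rfl : 0 = η := c1
    rw [hA'] at hg
    rw [(smul_eq_zero.1 hg).resolve_right hx.1]
    rfl
  have hr : LinearMap.range (A : (ℂ × Cm n) →ₗ[ℂ] Cm N) = LinearMap.ker (Jm P x).mulVecLin := by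
    refine Submodule.eq_of_le_of_finrank_eq (by rintro _ ⟨g, rfl⟩; exact hJ g) ?_
    have c1 := LinearMap.finrank_range_add_finrank_ker (Jm P x).mulVecLin
    have c2 := h.rk x hx
    rw [Matrix.rank] at c2
    rw [LinearMap.finrank_range_of_inj hi]
    simp only [Module.finrank_prod, Module.finrank_self, Module.finrank_fin_fun] at c1 ⊢
    rw [add_comm 1 n]
    exact Nat.add_left_cancel (c2.trans c1.symm)
  exact ⟨_, A, _, hA, h0, hA', ev.mono fun g k => k.1.2,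
    fun v => (SetLike.ext_iff.1 hr v).symm, hρ⟩

end Tub

open Tub in
theorem tub : TUB := by
  intro n N r e V P pt h x hx
  refine ⟨fun φ hφ ε hε => ?_, fun χ ρ hχ h1 h2 => ?_⟩
  · obtain ⟨Λ, A, g0, a1, rfl, -, a4, a5, -⟩ := core h hx (χ := chartAt (Cm n) (pt x))
      ⟨chart_mem_atlas _ _, mem_chart_source _ _⟩
    exact near (hs_Pv P _) a1 a4 (fun v => (a5 v).1) φ hφ hε
  · obtain ⟨Λ, A, g0, -, -, a3, -, a5, a6⟩ := core h hx hχ
    have b := a6 ρ h1 h2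
    refine ⟨by simpa only [a3, one_smul] using b (1, 0),
      fun η => ⟨A (0, η), (a5 _).2 ⟨_, rfl⟩, b _⟩, fun v hv hv' => ?_⟩
    obtain ⟨⟨c, η⟩, rfl⟩ := (a5 v).1 hv
    rw [b] at hv'
    obtain rfl : η = 0 := hv'
    exact ⟨c, a3 c⟩

end Vale.Agent.P280Z.Mp
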