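import Vale.Agent.P280Z.Mp.Sk
import Mathlib.RingTheory.MvPolynomial.EulerIdentity

/-!
# P280, binary forms: algebra
-/

open scoped Matrix
open Vale.Agent.P272.K

noncomputable section

namespace Vale.Agent.P280Z.Mp

variable {W W' : Type} [AddCommGroup W] [Module ℂ W] [AddCommGroup W'] [Module ℂ W'] {d i j : ℕ}
  {φ φ' : Cm 2 → W} {f : Cm 2 → ℂ}

theorem ev_add (a b : Fin (d + 1) → W) (z : Cm 2) : ev (a + b) z = ev a z + ev b z := by
  simp only [ev, Pi.add_apply, smul_add, Finset.sum_add_distrib]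

theorem ev_smul (c : ℂ) (a : Fin (d + 1) → W) (z : Cm 2) : ev (c • a) z = c • ev a z := by
  simp only [ev, Pi.smul_apply, Finset.smul_sum, smul_comm c]

theorem ev_zero (z : Cm 2) : ev (0 : Fin (d + 1) → W) z = 0 := by
  simp only [ev, Pi.zero_apply, smul_zero, Finset.sum_const_zero]

theorem ev_sub (a b : Fin (d + 1) → W) (z : Cm 2) : ev (a - b) z = ev a z - ev b z := by
  simp only [ev, Pi.sub_apply, smul_sub, Finset.sum_sub_distrib]

theorem ev_map (L : W →ₗ[ℂ] W') (a : Fin (d + 1) → W) (z : Cm 2) :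
    L (ev a z) = ev (fun i => L (a i)) z := by simp only [ev, map_sum, map_smul]

theorem ev_apply {ι : Type} (a : Fin (d + 1) → ι → ℂ) (z : Cm 2) (k : ι) :
    ev a z k = ev (fun i => a i k) z := ev_map (LinearMap.proj (R := ℂ) (φ := fun _ => ℂ) k) a z

theorem ev_arg (a : Fin (d + 1) → W) (c : ℂ) (z : Cm 2) : ev a (c • z) = c ^ d • ev a z := by
  simp only [ev, Finset.smul_sum, smul_smul, Pi.smul_apply, smul_eq_mul]
  refine Finset.sum_congr rfl fun i _ => congrArg (· • a i) ?_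
  rw [show c ^ d = c ^ (d - i.val) * c ^ i.val by rw [← pow_add, Nat.sub_add_cancel i.is_le]]
  ring

theorem ev_one (a : Fin (d + 1) → W) (t : ℂ) : ev a ![1, t] = ∑ i, t ^ i.val • a i := by
  simp [ev]

theorem ev_fst (a : Fin (d + 1) → W) : ev a ![1, 0] = a 0 := by
  rw [ev_one, Fin.sum_univ_succ]
  simp

theorem ev_snd (a : Fin (d + 1) → W) : ev a ![0, 1] = a (Fin.last d) := by
  rw [ev, Fin.sum_univ_castSucc, Finset.sum_eq_zero fun i _ => by
    simp [show d - i.val ≠ 0 by omega]]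
  simp

theorem co_ev (a : Fin (d + 1) → W) : co d (ev a) = a := by
  have h : IsUnit (Matrix.vandermonde fun l : Fin (d + 1) => (l.val : ℂ)).det :=
    (Matrix.det_vandermonde_ne_zero_iff.2 fun l l' e => Fin.ext (Nat.cast_injective e)).isUnit
  funext i
  have e := fun k => congrFun (congrFun (Matrix.nonsing_inv_mul _ h) i) k
  simp only [Matrix.mul_apply, Matrix.vandermonde_apply] at e
  simp only [co, ev_one, Finset.smul_sum, smul_smul]
  rw [Finset.sum_comm]
  simp only [← Finset.sum_smul, e, Matrix.one_apply, ite_smul, one_smul, zero_smul,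
    Finset.sum_ite_eq, Finset.mem_univ, if_true]

theorem ev_inj {a b : Fin (d + 1) → W} (h : ∀ z, ev a z = ev b z) : a = b := by
  rw [← co_ev a, show ev a = ev b from funext h, co_ev]

theorem hm_ev (a : Fin (d + 1) → W) : Hm d (ev a) := ⟨a, fun _ => rfl⟩

theorem Hm.ev_co (h : Hm d φ) (z : Cm 2) : ev (co d φ) z = φ z := by
  obtain ⟨a, ha⟩ := h
  rw [show φ = ev a from funext ha, co_ev]

theorem Hm.congr (h : Hm d φ) (e : ∀ z, φ' z = φ z) : Hm d φ' := by rwa [funext e]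

theorem Hm.cast {d' : ℕ} (h : Hm d φ) (e : d = d') : Hm d' φ := e ▸ h

theorem Hm.arg (h : Hm d φ) (c : ℂ) (z : Cm 2) : φ (c • z) = c ^ d • φ z := by
  rw [← h.ev_co, ev_arg, h.ev_co]

theorem Hm.zero : Hm d fun _ => (0 : W) := ⟨0, fun z => (ev_zero z).symm⟩

theorem Hm.add (h : Hm d φ) (h' : Hm d φ') : Hm d fun z => φ z + φ' z :=
  ⟨co d φ + co d φ', fun z => by rw [ev_add, h.ev_co, h'.ev_co]⟩

theorem Hm.sub (h : Hm d φ) (h' : Hm d φ') : Hm d fun z => φ z - φ' z :=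
  ⟨co d φ - co d φ', fun z => by rw [ev_sub, h.ev_co, h'.ev_co]⟩

theorem Hm.smul (c : ℂ) (h : Hm d φ) : Hm d fun z => c • φ z :=
  ⟨c • co d φ, fun z => by rw [ev_smul, h.ev_co]⟩

theorem Hm.map (L : W →ₗ[ℂ] W') (h : Hm d φ) : Hm d fun z => L (φ z) :=
  ⟨fun i => L (co d φ i), fun z => by rw [← ev_map, h.ev_co]⟩

theorem Hm.apply {ι : Type} {ψ : Cm 2 → ι → ℂ} (h : Hm d ψ) (k : ι) : Hm d fun z => ψ z k :=
  h.map (LinearMap.proj (R := ℂ) (φ := fun _ => ℂ) k)

theorem Hm.pi {ι : Type} {ψ : Cm 2 → ι → ℂ} (h : ∀ k, Hm d fun z => ψ z k) : Hm d ψ :=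
  ⟨fun i k => co d (fun z => ψ z k) i, fun z => funext fun k => by
    rw [ev_apply]
    exact ((h k).ev_co z).symm⟩

theorem Hm.sum {ι : Type} (s : Finset ι) {ψ : ι → Cm 2 → W} (h : ∀ k ∈ s, Hm d (ψ k)) :
    Hm d fun z => ∑ k ∈ s, ψ k z := by
  classical
  induction s using Finset.induction_on with
  | empty => exact Hm.zero
  | insert k s hk ih =>
    exact ((h k (Finset.mem_insert_self _ _)).add
      (ih fun l hl => h l (Finset.mem_insert_of_mem hl))).congr fun z => Finset.sum_insert hk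

theorem hm_mono (e : i + j = d) (w : W) : Hm d fun z => (z 0 ^ i * z 1 ^ j) • w :=
  ⟨Pi.single ⟨j, by omega⟩ w, fun z => by
    rw [ev, Finset.sum_eq_single ⟨j, by omega⟩ (fun k _ hk => by
      rw [Pi.single_eq_of_ne hk, smul_zero]) (fun h => absurd (Finset.mem_univ _) h),
      Pi.single_eq_same, show d - j = i by omega]⟩

theorem Hm.const (w : W) : Hm 0 fun _ => w :=
  (hm_mono (i := 0) (j := 0) rfl w).congr fun z => by simp

theorem Hm.mul (h : Hm i f) (h' : Hm j φ) : Hm (i + j) fun z => f z • φ z := by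
  obtain ⟨a, ha⟩ := h
  obtain ⟨b, hb⟩ := h'
  refine (Hm.sum Finset.univ fun (k : Fin (i + 1)) _ => Hm.sum Finset.univ fun (l : Fin (j + 1)) _ =>
    hm_mono (i := i - k.val + (j - l.val)) (j := k.val + l.val) (by omega) (a k • b l)).congr
    fun z => ?_
  rw [ha, hb, ev, ev, Finset.sum_smul]
  refine Finset.sum_congr rfl fun k _ => ?_
  rw [Finset.smul_sum]
  refine Finset.sum_congr rfl fun l _ => ?_
  rw [smul_smul, smul_smul, smul_eq_mul]
  congr 1
  ring

theorem Hm.prod {ι : Type} (s : Finset ι) {m : ι → ℕ} {ψ : ι → Cm 2 → ℂ}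
    (h : ∀ k ∈ s, Hm (m k) (ψ k)) : Hm (∑ k ∈ s, m k) fun z => ∏ k ∈ s, ψ k z := by
  classical
  induction s using Finset.induction_on with
  | empty => exact Hm.const 1
  | insert k s hk ih =>
    exact (((h k (Finset.mem_insert_self _ _)).mul
      (ih fun l hl => h l (Finset.mem_insert_of_mem hl))).congr fun z =>
        Finset.prod_insert hk).cast (Finset.sum_insert hk).symm

theorem Hm.pow (h : Hm d f) (k : ℕ) : Hm (d * k) fun z => f z ^ k := by
  induction k with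
  | zero => exact (Hm.const 1).congr fun z => pow_zero _
  | succ k ih => exact (ih.mul h).congr fun z => pow_succ _ _

theorem Hm.det {ι : Type} [Fintype ι] [DecidableEq ι] {m : ι → ℕ} {A : Cm 2 → Matrix ι ι ℂ}
    (h : ∀ k l, Hm (m l) fun z => A z k l) : Hm (∑ l, m l) fun z => (A z).det :=
  (Hm.sum Finset.univ fun (σ : Equiv.Perm ι) _ => (Hm.prod Finset.univ fun l _ => h (σ l) l).smul
    ((Equiv.Perm.sign σ : ℤ) : ℂ)).congr fun _ => Matrix.det_apply' _

theorem hm_lin (α β : ℂ) : Hm 1 fun z => α * z 0 + β * z 1 :=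
  ((hm_mono (i := 1) (j := 0) rfl α).add (hm_mono (i := 0) (j := 1) rfl β)).congr fun z => by
    simp only [smul_eq_mul]
    ring

theorem hm_lf (y : Cm 2) : Hm 1 (lf y) := (hm_lin (-y 1) (y 0)).congr fun z => by
  rw [lf]
  ring

theorem hm_mv (g : M2) (k : Fin 2) : Hm 1 fun z => (g *ᵥ z) k :=
  (hm_lin (g k 0) (g k 1)).congr fun z => by simp [Matrix.mulVec, dotProduct, Fin.sum_univ_two]

theorem Hm.comp (h : Hm d φ) (g : M2) : Hm d fun z => φ (g *ᵥ z) := by
  obtain ⟨a, ha⟩ := h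
  exact (Hm.sum Finset.univ fun (k : Fin (d + 1)) _ => (((((hm_mv g 0).pow (d - k.val)).mul
    ((hm_mv g 1).pow k.val)).mul (Hm.const (a k))).cast (by omega))).congr fun z => ha _

theorem ev_act (a : Fin (d + 1) → W) (g : M2) (z : Cm 2) : ev (act a g) z = ev a (g *ᵥ z) :=
  ((hm_ev a).comp g).ev_co z

theorem act_act (a : Fin (d + 1) → W) (g g' : M2) : act (act a g) g' = act a (g * g') :=
  ev_inj fun z => by rw [ev_act, ev_act, ev_act, Matrix.mulVec_mulVec]

theorem act_one (a : Fin (d + 1) → W) : act a 1 = a :=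
  ev_inj fun z => by rw [ev_act, Matrix.one_mulVec]

theorem act_smul (a : Fin (d + 1) → W) (c : ℂ) (g : M2) : act a (c • g) = c ^ d • act a g :=
  ev_inj fun z => by rw [ev_act, ev_smul, ev_act, Matrix.smul_mulVec, ev_arg]

theorem Hm.eval {N e : ℕ} {Q : MvPolynomial (Fin N) ℂ} (hQ : Q.IsHomogeneous e) {ψ : Cm 2 → Cm N}
    (h : Hm d ψ) : Hm (d * e) fun z => MvPolynomial.eval (ψ z) Q := by
  refine (Hm.sum Q.support fun m hm => ((Hm.prod Finset.univ fun k _ =>
    (h.apply k).pow (m k)).smul (Q.coeff m)).cast ?_).congr fun z => MvPolynomial.eval_eq' _ _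
  rw [← Finset.mul_sum, ← hQ (MvPolynomial.mem_support_iff.1 hm), Finsupp.weight_apply,
    Finsupp.sum_fintype _ _ fun _ => by simp]
  simp

variable {N r e : ℕ} {P : Eqs r N}

theorem hm_Pv (hP : Hom P e) {ψ : Cm 2 → Cm N} (h : Hm d ψ) : Hm (d * e) fun z => Pv P (ψ z) :=
  Hm.pi fun k => Hm.eval (hP k) h

theorem hm_Jm (hP : Hom P (e + 1)) {ψ : Cm 2 → Cm N} (h : Hm d ψ) (k : Fin r) (l : Fin N) :
    Hm (d * e) fun z => Jm P (ψ z) k l := Hm.eval (hP k).pderiv h

theorem ev_Psi (hP : Hom P e) (a : BF d N) (z : Cm 2) : ev (Psi P e a) z = Pv P (ev a z) :=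
  (hm_Pv hP (hm_ev a)).ev_co z

theorem Pv_smul (hP : Hom P e) (c : ℂ) (x : Cm N) : Pv P (c • x) = c ^ e • Pv P x := by
  have h := (hm_Pv hP (hm_mono (i := 1) (j := 0) rfl x)).arg c ![1, 0]
  simpa using h

/-- the polynomial in one variable -/
def pl (a : Fin (d + 1) → ℂ) : Polynomial ℂ := ∑ i, Polynomial.monomial i.val (a i)

theorem pl_eval (a : Fin (d + 1) → ℂ) (t : ℂ) : (pl a).eval t = ev a ![1, t] := by
  simp [pl, ev_one, Polynomial.eval_finsetSum, mul_comm]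

theorem pl_coeff (a : Fin (d + 1) → ℂ) (i : Fin (d + 1)) : (pl a).coeff i.val = a i := by
  simp [pl, Polynomial.coeff_monomial, Fin.val_inj]

theorem Hm.root (h : Hm (d + 1) f) : ∃ y, y ≠ 0 ∧ f y = 0 := by
  obtain ⟨a, ha⟩ := h
  by_cases h0 : a (Fin.last _) = 0
  · exact ⟨![0, 1], fun e => one_ne_zero (congrFun e 1), by rw [ha, ev_snd, h0]⟩
  · obtain ⟨t, ht⟩ := Complex.exists_root (f := pl a) (Polynomial.natDegree_pos_iff_degree_pos.1
      (lt_of_lt_of_le d.succ_pos (Polynomial.le_natDegree_of_ne_zero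
        (n := (Fin.last (d + 1)).val) (by rwa [pl_coeff]))))
    exact ⟨![1, t], fun e => one_ne_zero (congrFun e 0), by rw [ha, ← pl_eval, ht]⟩

theorem Hm.cancel (h : Hm i f) (h0 : ∃ y, f y ≠ 0) (h' : Hm j φ) (e : ∀ z, f z • φ z = 0)
    (z : Cm 2) : φ z = 0 := by
  refine (Module.forall_dual_apply_eq_zero_iff ℂ _).1 fun L => ?_
  obtain ⟨a, ha⟩ := h
  obtain ⟨b, hb⟩ := h'.map L
  have h1 : pl a * pl b = 0 := Polynomial.funext fun t => by
    rw [Polynomial.eval_mul, pl_eval, pl_eval, ← ha, ← hb, ← smul_eq_mul, ← map_smul, e, map_zero,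
      Polynomial.eval_zero]
  have h2 : ∀ {k : ℕ} (c : Fin (k + 1) → ℂ), pl c = 0 → c = 0 := fun c hc =>
    funext fun l => by rw [← pl_coeff c, hc, Polynomial.coeff_zero, Pi.zero_apply]
  rcases mul_eq_zero.1 h1 with k | k
  · obtain ⟨y, hy⟩ := h0
    exact absurd (by rw [ha, h2 a k, ev_zero]) hy
  · exact (hb z).trans (by rw [h2 b k, ev_zero])

theorem Hm.div (h : Hm (d + 1) φ) {y : Cm 2} (hy : y ≠ 0) (h0 : φ y = 0) :
    ∃ ψ, Hm d ψ ∧ ∀ z, φ z = lf y z • ψ z := by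
  obtain ⟨w, hw⟩ : ∃ w : Cm 2, w 0 * y 1 - y 0 * w 1 = 1 := by
    by_cases h1 : y 1 = 0
    · have h2 : y 0 ≠ 0 := fun e => hy (funext fun k => by fin_cases k <;> assumption)
      exact ⟨![0, -(y 0)⁻¹], by simp [h2]⟩
    · exact ⟨![(y 1)⁻¹, 0], by simp [h1]⟩
  obtain ⟨a, ha⟩ := h.comp !![w 0, y 0; w 1, y 1]
  have h1 : a (Fin.last _) = 0 := by
    rw [← ev_snd a, ← ha, ← h0]
    exact congrArg φ (funext fun k => by fin_cases k <;> simp)
  have h2 : ∀ z, ev a z = z 0 • ev (fun k : Fin (d + 1) => a k.castSucc) z := fun z => by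
    rw [ev, Fin.sum_univ_castSucc, h1, smul_zero, add_zero, ev, Finset.smul_sum]
    refine Finset.sum_congr rfl fun k _ => ?_
    rw [smul_smul, Fin.val_castSucc, show d + 1 - k.val = d - k.val + 1 by omega]
    congr 1
    ring
  refine ⟨_, ((hm_ev fun k : Fin (d + 1) => a k.castSucc).comp !![y 1, -y 0; -w 1, w 0]).smul (-1),
    fun z => ?_⟩
  have h3 : !![w 0, y 0; w 1, y 1] *ᵥ (!![y 1, -y 0; -w 1, w 0] *ᵥ z) = z := funext fun k => by
    fin_cases k <;> simp [Matrix.mulVec, dotProduct, Fin.sum_univ_two]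
    · linear_combination z 0 * hw
    · linear_combination z 1 * hw
  refine (congrArg φ h3).symm.trans (((ha _).trans (h2 _)).trans ?_)
  rw [smul_smul]
  congr 1
  simp [Matrix.mulVec, dotProduct, Fin.sum_univ_two, lf]
  ring

end Vale.Agent.P280Z.Mp
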