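import Vale.Agent.P280Z.Mp.Sk

/-!
# P280: quotients with holomorphic slices are compact complex manifolds
-/

open scoped Manifold ContDiff Topology
open Set Filter
open Vale.Agent.P272.K Vale.Agent.P281Z

noncomputable section

namespace Vale.Agent.P280Z.Mp

namespace Quo

/-- an injective continuous map which maps neighbourhoods onto neighbourhoods is a chart -/
theorem chart {k : ℕ} {Y : Type} [TopologicalSpace Y] {B : Set (Cm k)} {f : Cm k → Y}
    (hB : IsOpen B) (hc : ContinuousOn f B) (hi : InjOn f B)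
    (ho : ∀ v ∈ B, 𝓝 (f v) ≤ map f (𝓝 v)) :
    ∃ χ : Chart k Y, χ.target = B ∧ ∀ v, χ.symm v = f v := by
  refine ⟨(OpenPartialHomeomorph.ofContinuousOpenRestrict (hi.toPartialEquiv f B) hc
    (IsOpenMap.of_nhds_le fun v => ?_) hB).symm, rfl, fun _ => rfl⟩
  exact (ho v.1 v.2).trans (le_of_eq
    (congrArg (map f) (hB.isOpenEmbedding_subtypeVal.map_nhds_eq v).symm))

end Quo

theorem quo : QUO := by
  intro k X _ s ι B ψ hO hC ⟨C, hK, hK'⟩ hB hψ hinj hcov hloc htr
  let π : X → Quotient s := Quotient.mk s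
  have πc : Continuous π := continuous_quotient_mk'
  have πs : Function.Surjective π := Quotient.mk_surjective
  have πe : ∀ x y, π x = π y ↔ s x y := fun _ _ => Quotient.eq
  have πo : IsOpenMap π := fun O h => by
    rw [← isQuotientMap_quotient_mk'.isOpen_preimage]
    have e : Quotient.mk' ⁻¹' (π '' O) = {x | ∃ y ∈ O, s x y} :=
      ext fun x => exists_congr fun y => and_congr_right fun _ => eq_comm.trans (πe x y)
    exact e ▸ hO O h
  have _ : T2Space (Quotient s) := (t2Space_iff_of_isOpenQuotientMap ⟨πs, πc, πo⟩).2 (by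
    simpa only [πe] using hC)
  have _ : CompactSpace (Quotient s) := ⟨by
    refine (hK.image πc).of_isClosed_subset isClosed_univ fun y _ => ?_
    obtain ⟨x, rfl⟩ := πs y
    obtain ⟨z, hz, e⟩ := hK' x
    exact ⟨z, hz, ((πe _ _).2 e).symm⟩⟩
  choose χ ht hs using fun i => Quo.chart (f := fun v => π (ψ i v)) (hB i)
    (πc.comp_continuousOn (hψ i)) (fun v hv v' hv' e => hinj i v hv v' hv' ((πe _ _).1 e))
    fun v hv => le_map fun O h => by
      obtain ⟨τ, h1, h2, h3⟩ := hloc i v hv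
      refine mem_of_superset (πo.image_mem_nhds (h3.and (h1.eventually_mem (h2.symm ▸ h)))) ?_
      rintro _ ⟨x, hx, rfl⟩
      exact ⟨τ x, hx.2, ((πe _ _).2 hx.1).symm⟩
  have hy : ∀ y, ∃ i, y ∈ (χ i).source := fun y => by
    obtain ⟨x, rfl⟩ := πs y
    obtain ⟨i, v, hv, e⟩ := hcov x
    exact ⟨i, (πe _ _).2 e ▸ hs i v ▸ (χ i).map_target (ht i ▸ hv)⟩
  choose ix hix using hy
  let _ : ChartedSpace (Cm k) (Quotient s) := ⟨range χ, fun y => χ (ix y), hix, fun _ => ⟨_, rfl⟩⟩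
  have _ : IsManifold 𝓘(ℂ, Cm k) ω (Quotient s) := isManifold_of_contDiffOn _ _ _ (by
    rintro _ _ ⟨i, rfl⟩ ⟨j, rfl⟩ v hv
    have h1 : v ∈ (χ i).target ∧ (χ i).symm v ∈ (χ j).source := by simpa using hv
    have h2 : χ j ((χ i).symm v) ∈ B j := ht j ▸ (χ j).map_source h1.2
    obtain ⟨τ, a1, a2, a3⟩ := htr i j v (ht i ▸ h1.1) _ h2 ((πe _ _).1 (by
      rw [← hs, ← hs, (χ j).left_inv h1.2]))
    refine (a1.contDiffAt.congr_of_eventuallyEq ?_).contDiffWithinAt
    filter_upwards [a3, a1.continuousAt.eventually_mem ((hB j).mem_nhds (a2.symm ▸ h2))]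
      with u h3 h4
    show χ j ((χ i).symm u) = τ u
    rw [hs, (πe _ _).2 h3, ← hs, (χ j).right_inv (ht j ▸ h4)])
  exact ⟨⟨Quotient s⟩, π, χ, πc, πs, πo, πe, rfl, fun i => ⟨ht i, fun v _ => hs i v⟩⟩

end Vale.Agent.P280Z.Mp
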