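import Vale.Agent.P280Z.Co.PuD
import Vale.Agent.P281Z.Defs
import Mathlib.LinearAlgebra.Vandermonde
import Mathlib.RingTheory.MvPolynomial.Homogeneous
import Mathlib.Algebra.MvPolynomial.PDeriv

/-!
# P280, the space of rational curves of minimal degree: definitions
-/

open scoped Manifold ContDiff Topology Matrix Matrix.Norms.Elementwise
open Set Filter
open Vale.Agent.P272.K Vale.Agent.P281Z
open Vale.Agent.P280Z.Pu (ap p1 p2)

noncomputable section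

namespace Vale.Agent.P280Z.Mp

/-- binary forms of degree `d` with values in `ℂ^N`, by their coefficients -/
abbrev BF (d N : ℕ) : Type := Fin (d + 1) → Cm N

/-- `2 × 2` matrices -/
abbrev M2 : Type := Matrix (Fin 2) (Fin 2) ℂ

section forms
variable {W : Type} [AddCommGroup W] [Module ℂ W] {d : ℕ}

/-- the value of a binary form -/
def ev (a : Fin (d + 1) → W) (z : Cm 2) : W := ∑ i, (z 0 ^ (d - i.val) * z 1 ^ i.val) • a i

/-- `φ` is a binary form of degree `d` -/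
def Hm (d : ℕ) (φ : Cm 2 → W) : Prop := ∃ a : Fin (d + 1) → W, ∀ z, φ z = ev a z

/-- the coefficients of a binary form, by interpolation -/
def co (d : ℕ) (φ : Cm 2 → W) : Fin (d + 1) → W := fun i =>
  ∑ l : Fin (d + 1), (Matrix.vandermonde fun l : Fin (d + 1) => (l.val : ℂ))⁻¹ i l • φ ![1, l.val]

/-- substitution of a matrix -/
def act (a : Fin (d + 1) → W) (g : M2) : Fin (d + 1) → W := co d fun z => ev a (g *ᵥ z)

/-- `a` has no zero but the origin -/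
def Nz (a : Fin (d + 1) → W) : Prop := ∀ z, z ≠ 0 → ev a z ≠ 0

/-- the linear form vanishing at `y` -/
def lf (y z : Cm 2) : ℂ := y 0 * z 1 - y 1 * z 0

end forms

variable {d N r : ℕ}

/-- the infinitesimal substitution -/
def inf (a : BF d N) (ξ : M2) : BF d N := co d fun z => fderiv ℂ (ev a) z (ξ *ᵥ z)

/-- systems of equations -/
abbrev Eqs (r N : ℕ) : Type := Fin r → MvPolynomial (Fin N) ℂ

/-- the values of the equations -/
def Pv (P : Eqs r N) (x : Cm N) : Cm r := fun i => MvPolynomial.eval x (P i)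

/-- the Jacobian matrix -/
def Jm (P : Eqs r N) (x : Cm N) : Matrix (Fin r) (Fin N) ℂ :=
  Matrix.of fun i j => MvPolynomial.eval x (MvPolynomial.pderiv j (P i))

/-- points of the cone other than the vertex -/
def In (P : Eqs r N) (x : Cm N) : Prop := x ≠ 0 ∧ Pv P x = 0

/-- parametrised rational curves of degree `d` -/
def Crv (P : Eqs r N) (a : BF d N) : Prop := ∀ z, z ≠ 0 → In P (ev a z)

/-- the sections of the pull-back of the Euler extension of the tangent bundle -/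
def Tg (P : Eqs r N) (a : BF d N) : Submodule ℂ (BF d N) where
  carrier := {b | ∀ z, Jm P (ev a z) *ᵥ ev b z = 0}
  add_mem' := by
    intro b b' h h' z
    have e : ev (b + b') z = ev b z + ev b' z := by
      simp only [ev, Pi.add_apply, smul_add, Finset.sum_add_distrib]
    rw [e, Matrix.mulVec_add, h z, h' z, add_zero]
  zero_mem' z := by simp only [ev, Pi.zero_apply, smul_zero, Finset.sum_const_zero,
    Matrix.mulVec_zero]
  smul_mem' := by
    intro c b h z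
    have e : ev (c • b) z = c • ev b z := by
      simp only [ev, Pi.smul_apply, Finset.smul_sum, smul_comm c]
    rw [e, Matrix.mulVec_smul, h z, smul_zero]

/-- the pull-back of the Euler extension by `a` is generated by its sections -/
def Gen (P : Eqs r N) (a : BF d N) : Prop :=
  ∀ z, z ≠ 0 → ∀ v, Jm P (ev a z) *ᵥ v = 0 → ∃ b ∈ Tg P a, ev b z = v

/-- the tangent bundle is nef on rational curves -/
def Nef (P : Eqs r N) : Prop := ∀ (d : ℕ) (a : BF d N), Crv P a → Gen P a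

/-- there is no curve of degree in `(0, d)` -/
def Low (P : Eqs r N) (d : ℕ) : Prop := ∀ d', 0 < d' → d' < d → ∀ a : BF d' N, ¬ Crv P a

/-- all equations have the degree `e` -/
def Hom (P : Eqs r N) (e : ℕ) : Prop := ∀ i, (P i).IsHomogeneous e

/-- the equations of the space of curves -/
def Psi (P : Eqs r N) (e : ℕ) (a : BF d N) : BF (d * e) r := co (d * e) fun z => Pv P (ev a z)

/-- their derivative -/
def dPsi (P : Eqs r N) (e : ℕ) (a b : BF d N) : BF (d * e) r :=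
  co (d * e) fun z => Jm P (ev a z) *ᵥ ev b z

/-- `V` is the projectivisation of the cone, which is cut out transversally -/
structure Cone {n : ℕ} (V : Mf n) (P : Eqs r N) (e : ℕ) (pt : Cm N → V.X) : Prop where
  hom : Hom P e
  smul : ∀ x (c : ℂ), In P x → c ≠ 0 → pt (c • x) = pt x
  inj : ∀ x y, In P x → In P y → pt x = pt y → ∃ c : ℂ, y = c • x
  onto : ∀ v, ∃ x, In P x ∧ pt x = v
  rk : ∀ x, In P x → (Jm P x).rank + (n + 1) = N
  loc : ∀ x, In P x → ∀ χ : Chart n V.X, At χ (pt x) → ∃ (ρ : Cm N → Cm n) (lam : Cm n → Cm N),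
    AnalyticAt ℂ ρ x ∧ AnalyticAt ℂ lam (χ (pt x)) ∧ lam (χ (pt x)) = x ∧
    (∀ᶠ y in 𝓝 x, In P y → pt y ∈ χ.source ∧ χ (pt y) = ρ y) ∧
    ∀ᶠ ξ in 𝓝 (χ (pt x)), In P (lam ξ) ∧ pt (lam ξ) = χ.symm ξ

/-- curves of degree `d` whose space of deformations has dimension `D` -/
def CD (P : Eqs r N) (D : ℕ) (a : BF d N) : Prop := Crv P a ∧ Module.finrank ℂ (Tg P a) = D

/-- a holomorphic slice through `a` for the action of `GL₂` -/
structure Slice (P : Eqs r N) (D : ℕ) {k : ℕ} (a : BF d N) (B : Set (Cm k)) (σ : Cm k → BF d N) :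
    Prop where
  opn : IsOpen B
  mem : 0 ∈ B
  zero : σ 0 = a
  an : ∀ v ∈ B, AnalyticAt ℂ σ v
  cd : ∀ v ∈ B, CD P D (σ v)
  tg : ∀ v ∈ B, ∀ u, fderiv ℂ σ v u ∈ Tg P (σ v)
  span : ∀ v ∈ B, ∀ b ∈ Tg P (σ v), ∃ ξ u, b = inf (σ v) ξ + fderiv ℂ σ v u
  ind : ∀ v ∈ B, ∀ ξ u, inf (σ v) ξ + fderiv ℂ σ v u = 0 → ξ = 0 ∧ u = 0
  inj : ∀ v ∈ B, ∀ v' ∈ B, ∀ g : M2, σ v' = act (σ v) g → v = v'
  loc : ∀ v ∈ B, ∃ (vv : BF d N → Cm k) (gg : BF d N → M2), AnalyticAt ℂ vv (σ v) ∧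
    AnalyticAt ℂ gg (σ v) ∧ vv (σ v) = v ∧ gg (σ v) = 1 ∧
    ∀ᶠ b in 𝓝 (σ v), Crv P b → b = act (σ (vv b)) (gg b)

/-- the point `(1, t)` or `(t, 1)` -/
def zz (j : Fin 2) (t : ℂ) : Cm 2 := fun i => if i = j then 1 else t

/-- the space `K` of unparametrised curves in the class `M` and the universal curve `U` -/
structure Fam {n : ℕ} (V : Mf n) (P : Eqs r N) (pt : Cm N → V.X) (d D k : ℕ) : Type 1 where
  M : BF d N → Prop
  K : Mf k
  U : Mf (k + 1)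
  pk : BF d N → K.X
  pu : BF d N → Cm 2 → U.X
  p : U.X → K.X
  e : U.X → V.X
  cd : ∀ a, M a → CD P D a
  inv : ∀ a (g : M2), M a → g.det ≠ 0 → M (act a g)
  opn : ∀ a, Crv P a → ∀ᶠ b in 𝓝 a, Crv P b → (M b ↔ M a)
  pk_eq : ∀ a a', M a → M a' → (pk a = pk a' ↔ ∃ g : M2, a' = act a g)
  pu_eq : ∀ a a' z z', M a → M a' → z ≠ 0 → z' ≠ 0 →
    (pu a z = pu a' z' ↔ ∃ (g : M2) (c : ℂ), a' = act a g ∧ g *ᵥ z' = c • z)
  pk_onto : ∀ y, ∃ a, M a ∧ pk a = y
  pu_onto : ∀ x, ∃ a z, M a ∧ z ≠ 0 ∧ pu a z = x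
  p_pu : ∀ a z, M a → z ≠ 0 → p (pu a z) = pk a
  e_pu : ∀ a z, M a → z ≠ 0 → e (pu a z) = pt (ev a z)
  p_hol : HolM (k + 1) k p
  p_sbm : ∀ x, Sbm (k + 1) k p x
  e_hol : HolM (k + 1) n e
  e_sbm : ∀ x, Sbm (k + 1) n e x
  chart : ∀ a, M a → ∃ (σ : Cm k → BF d N) (χ : Chart k K.X) (c : Fin 2 → Chart (k + 1) U.X),
    Slice P D a χ.target σ ∧ χ ∈ atlas (Cm k) K.X ∧ (∀ v ∈ χ.target, χ.symm v = pk (σ v)) ∧
    (∀ v ∈ χ.target, M (σ v)) ∧
    ∀ j, c j ∈ atlas (Cm (k + 1)) U.X ∧ (c j).target = p1 k 1 ⁻¹' χ.target ∧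
      ∀ w ∈ (c j).target, (c j).symm w = pu (σ (p1 k 1 w)) (zz j (p2 k 1 w 0))
  fam_k : ∀ {l : ℕ} (a : Cm l → BF d N) (τ : Cm l) (χ : Chart k K.X), AnalyticAt ℂ a τ →
    (∀ᶠ s in 𝓝 τ, M (a s)) → At χ (pk (a τ)) →
    ContinuousAt (fun s => pk (a s)) τ ∧ AnalyticAt ℂ (fun s => χ (pk (a s))) τ
  fam_u : ∀ {l : ℕ} (a : Cm l → BF d N) (z : Cm l → Cm 2) (τ : Cm l) (c : Chart (k + 1) U.X),
    AnalyticAt ℂ a τ → AnalyticAt ℂ z τ → (∀ᶠ s in 𝓝 τ, M (a s)) → z τ ≠ 0 →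
    At c (pu (a τ) (z τ)) →
    ContinuousAt (fun s => pu (a s) (z s)) τ ∧ AnalyticAt ℂ (fun s => c (pu (a s) (z s))) τ
  pk_cont : ContinuousOn pk {a | M a}
  pu_cont : ContinuousOn (fun q : BF d N × Cm 2 => pu q.1 q.2) {q | M q.1 ∧ q.2 ≠ 0}

/-- **the output of the block** -/
def MAPS : Prop := ∀ {n N r : ℕ} (V : Mf n) (P : Eqs r N) (e : ℕ) (pt : Cm N → V.X) (d D k : ℕ)
  (M : BF d N → Prop), Cone V P e pt → 0 < d → Low P d → (∀ a : BF d N, Crv P a → Gen P a) →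
  k + 4 = D → (∀ a, M a → CD P D a) → (∀ a (g : M2), M a → g.det ≠ 0 → M (act a g)) →
  (∀ a, Crv P a → ∀ᶠ b in 𝓝 a, Crv P b → (M b ↔ M a)) → (∃ a, M a) →
  ∃ F : Fam V P pt d D k, F.M = M

end Vale.Agent.P280Z.Mp
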