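import Vale.Agent.P280Z.Mp.Defs

/-!
# P280, the space of rational curves of minimal degree: statements of the rows
-/

open scoped Manifold ContDiff Topology Matrix Matrix.Norms.Elementwise
open Set Filter
open Vale.Agent.P272.K Vale.Agent.P281Z

noncomputable section

namespace Vale.Agent.P280Z.Mp

/-- row SURJ: sections of the normal bundle lift -/
def SURJ : Prop := ∀ {d N r c e : ℕ} (P : Eqs r N) (a : BF d N), Hom P e → Crv P a →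
  (∀ x, In P x → (Jm P x).rank = c) → Gen P a → ∀ u : BF (d * e) r,
  (∀ z, z ≠ 0 → ∃ v, Jm P (ev a z) *ᵥ v = ev u z) →
  ∃ b : BF d N, ∀ z, Jm P (ev a z) *ᵥ ev b z = ev u z

/-- row TUB: the tangent space of the cone, and the values of the equations near the cone -/
def TUB : Prop := ∀ {n N r e : ℕ} (V : Mf n) (P : Eqs r N) (pt : Cm N → V.X), Cone V P e pt →
  ∀ x, In P x →
  (∀ (φ : Cm r →L[ℂ] ℂ), (∀ v, φ (Jm P x *ᵥ v) = 0) → ∀ ε : ℝ, 0 < ε →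
    ∀ᶠ y in 𝓝 x, ‖φ (Pv P y)‖ ≤ ε * ‖Pv P y‖) ∧
  ∀ (χ : Chart n V.X) (ρ : Cm N → Cm n), At χ (pt x) → AnalyticAt ℂ ρ x →
    (∀ᶠ y in 𝓝 x, In P y → χ (pt y) = ρ y) → fderiv ℂ ρ x x = 0 ∧
      (∀ η, ∃ v, Jm P x *ᵥ v = 0 ∧ fderiv ℂ ρ x v = η) ∧
      ∀ v, Jm P x *ᵥ v = 0 → fderiv ℂ ρ x v = 0 → ∃ c : ℂ, v = c • x

/-- row SMO: the space of curves is cut out by the independent equations -/
def SMO : Prop := ∀ {n N r e d : ℕ} (V : Mf n) (P : Eqs r N) (pt : Cm N → V.X) (a : BF d N),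
  Cone V P e pt → Crv P a → Gen P a → ∀ (F : Type) [NormedAddCommGroup F] [NormedSpace ℂ F]
  (q : BF (d * e) r →L[ℂ] F), (∀ b, q (dPsi P e a b) = 0 → b ∈ Tg P a) →
  ∀ᶠ a' in 𝓝 a, q (Psi P e a') = 0 → Crv P a'

/-- row FREE: the action is free up to roots of unity -/
def FREE : Prop := ∀ {d N r : ℕ} (P : Eqs r N) (a : BF d N), 0 < d → Crv P a →
  (∀ ξ, inf a ξ = 0 → ξ = 0) ∧
  (Low P d → ∀ g : M2, act a g = a → ∃ c : ℂ, c ^ d = 1 ∧ g = c • (1 : M2))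

/-- row PROP: the action is proper -/
def PROP : Prop := ∀ {d N : ℕ} (a a' : BF d N), 0 < d → Nz a → Nz a' →
  ∃ S : Set M2, IsCompact S ∧ (∀ g ∈ S, g.det ≠ 0) ∧
    ∀ᶠ b in 𝓝 ((a, a') : BF d N × BF d N), ∀ g : M2, b.2 = act b.1 g → g ∈ S

/-- row CPT: no bubbles -/
def CPT : Prop := ∀ {d N r e : ℕ} (P : Eqs r N), Hom P e → 0 < d → Low P d →
  ∃ C : Set (BF d N), IsCompact C ∧ (∀ a ∈ C, Crv P a) ∧
    ∀ a : BF d N, Crv P a → ∃ g : M2, g.det ≠ 0 ∧ act a g ∈ C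

/-- row SLC: slices exist -/
def SLC : Prop := ∀ {n N r e d D k : ℕ} (V : Mf n) (P : Eqs r N) (pt : Cm N → V.X) (a : BF d N),
  Cone V P e pt → 0 < d → Low P d → Gen P a → CD P D a → k + 4 = D →
  ∃ (B : Set (Cm k)) (σ : Cm k → BF d N), Slice P D a B σ

/-- row QUO: quotients with holomorphic slices are compact complex manifolds -/
def QUO : Prop := ∀ (k : ℕ) (X : Type) [TopologicalSpace X] (s : Setoid X) (ι : Type)
  (B : ι → Set (Cm k)) (ψ : ι → Cm k → X),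
  (∀ O : Set X, IsOpen O → IsOpen {x | ∃ y ∈ O, s x y}) → IsClosed {q : X × X | s q.1 q.2} →
  (∃ C : Set X, IsCompact C ∧ ∀ x, ∃ y ∈ C, s x y) → (∀ i, IsOpen (B i)) →
  (∀ i, ContinuousOn (ψ i) (B i)) → (∀ i, ∀ v ∈ B i, ∀ v' ∈ B i, s (ψ i v) (ψ i v') → v = v') →
  (∀ x, ∃ i, ∃ v ∈ B i, s x (ψ i v)) →
  (∀ i, ∀ v ∈ B i, ∃ τ : X → Cm k, ContinuousAt τ (ψ i v) ∧ τ (ψ i v) = v ∧
    ∀ᶠ x in 𝓝 (ψ i v), s x (ψ i (τ x))) →
  (∀ i j, ∀ v ∈ B i, ∀ v' ∈ B j, s (ψ i v) (ψ j v') → ∃ τ : Cm k → Cm k, AnalyticAt ℂ τ v ∧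
    τ v = v' ∧ ∀ᶠ u in 𝓝 v, s (ψ i u) (ψ j (τ u))) →
  ∃ (K : Mf k) (π : X → K.X) (χ : ι → Chart k K.X), Continuous π ∧ Function.Surjective π ∧
    IsOpenMap π ∧ (∀ x y, π x = π y ↔ s x y) ∧ atlas (Cm k) K.X = range χ ∧
    ∀ i, (χ i).target = B i ∧ ∀ v ∈ B i, (χ i).symm v = π (ψ i v)

end Vale.Agent.P280Z.Mp
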