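import Vale.Agent.P280Z.Mp.Bf0

/-!
# P280, the space of rational curves: sections of the normal bundle lift
-/

open scoped Topology Matrix
open Filter Matrix
open Vale.Agent.P272.K

noncomputable section

namespace Vale.Agent.P280Z.Mp

namespace Surj

variable {d N r c k : ℕ}

theorem pj (i : Fin 2) (z : Cm 2) : AnalyticAt ℂ (fun z : Cm 2 => z i) z :=
  (ContinuousLinearMap.proj (R := ℂ) (φ := fun _ => ℂ) i).analyticAt z

theorem an {W : Type} [NormedAddCommGroup W] [NormedSpace ℂ W] {φ : Cm 2 → W} (h : Hm d φ)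
    (z : Cm 2) : AnalyticAt ℂ φ z := by
  obtain ⟨a, ha⟩ := h
  rw [show φ = ev a from funext ha]
  exact Finset.analyticAt_fun_sum _ fun i _ =>
    (((pj 0 z).pow _).mul ((pj 1 z).pow _)).smul analyticAt_const

theorem ct {W : Type} [NormedAddCommGroup W] [NormedSpace ℂ W] {φ : Cm 2 → W} (h : Hm d φ) :
    Continuous φ := continuous_iff_continuousAt.2 fun z => (an h z).continuousAt

theorem canc {φ : Cm 2 → ℂ} {ψ : Cm 2 → Cm r} (h : ∀ z, AnalyticAt ℂ φ z) (h0 : ∃ z, φ z ≠ 0)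
    (hψ : Continuous ψ) (e : ∀ z, φ z ≠ 0 → ψ z = 0) (z : Cm 2) : ψ z = 0 := by
  by_contra k
  obtain ⟨y, hy⟩ := h0
  refine hy (congrFun (AnalyticOnNhd.eq_of_eventuallyEq (g := fun _ => 0) (z₀ := z)
    (fun z _ => h z) analyticOnNhd_const ?_) y)
  filter_upwards [hψ.continuousAt.eventually_ne k] with w hw
  exact by_contra fun h1 => hw (e w h1)

theorem canc0 {ψ : Cm 2 → Cm r} (hψ : Continuous ψ) (e : ∀ z, z ≠ 0 → ψ z = 0) (z : Cm 2) :
    ψ z = 0 :=
  canc (pj 0) ⟨1, one_ne_zero⟩ hψ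
    (fun w hw => e w fun h => hw (congrFun h 0)) z

theorem desc {J : Cm 2 → Matrix (Fin r) (Fin N) ℂ} {u : Cm 2 → Cm r} (hJ : Continuous J)
    (hu : Continuous u) (G : ∀ y, y ≠ 0 → ∀ v, J y *ᵥ v = 0 →
      ∃ b : BF d N, (∀ z, J z *ᵥ ev b z = 0) ∧ ev b y = v) (k : ℕ) :
    ∀ (δ : Cm 2 → ℂ) (b : Cm 2 → Cm N), Hm k δ → (∃ z, δ z ≠ 0) → Hm (k + d) b →
      (∀ z, J z *ᵥ b z = δ z • u z) → ∃ b : BF d N, ∀ z, J z *ᵥ ev b z = u z := by
  induction k with
  | zero =>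
    rintro δ b ⟨a, ha⟩ ⟨y, hy⟩ hb e
    have k : ∀ z, δ z = δ y := fun z => by simp [ha, ev]
    rw [zero_add] at hb
    obtain ⟨b', hb'⟩ := hb.smul (δ y)⁻¹
    exact ⟨b', fun z => by rw [← hb', mulVec_smul, e, k z, inv_smul_smul₀ hy]⟩
  | succ k ih =>
    intro δ b hδ h0 hb e
    obtain ⟨y, y0, hy⟩ := hδ.root
    obtain ⟨δ', k1, k2⟩ := hδ.div y0 hy
    obtain ⟨w, k3, k4⟩ := G y y0 (b y) (by rw [e, hy, zero_smul])
    obtain ⟨i, hi⟩ := Function.ne_iff.1 y0
    have k5 := (((hm_mv 1 i).smul (y i)⁻¹).pow (k + 1)).mul (hm_ev w)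
    simp only [one_mul, one_mulVec] at k5
    have k6 := hb.sub k5
    rw [Nat.add_right_comm] at k6
    obtain ⟨b', k7, k8⟩ := k6.div y0
      (by rw [smul_eq_mul, inv_mul_cancel₀ hi, one_pow, one_smul, k4, sub_self])
    obtain ⟨x, hx⟩ := h0
    rw [k2, smul_eq_mul] at hx
    refine ih δ' b' k1 ⟨x, right_ne_zero_of_mul hx⟩ k7 fun z => sub_eq_zero.1 ?_
    refine canc (φ := lf y) (ψ := fun z => J z *ᵥ b' z - δ' z • u z)
      (fun w => (analyticAt_const.mul (pj 1 w)).sub (analyticAt_const.mul (pj 0 w)))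
      ⟨x, left_ne_zero_of_mul hx⟩
      ((hJ.matrix_mulVec (ct k7)).sub ((ct k1).smul hu)) (fun w hw => ?_) z
    refine (smul_eq_zero.1 ?_).resolve_left hw
    rw [smul_sub, ← mulVec_smul, ← k8, mulVec_sub, mulVec_smul, k3, e, k2, smul_zero, sub_zero,
      smul_assoc, sub_self]

theorem frame (J : Matrix (Fin r) (Fin N) ℂ) (h : J.rank = c) :
    ∃ (L : Matrix (Fin c) (Fin r) ℂ) (B : Matrix (Fin N) (Fin c) ℂ), L * J * B = 1 := by
  let β := Module.finBasisOfFinrankEq ℂ (LinearMap.range J.mulVecLin) h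
  obtain ⟨g, hg⟩ := LinearMap.exists_extend β.equivFun.toLinearMap
  choose b hb using fun j => (β j).2
  refine ⟨LinearMap.toMatrix' g, Matrix.of fun i j => b j i, ?_⟩
  ext i j
  have k := congrFun (LinearMap.congr_fun hg (β j)) i
  rw [LinearMap.comp_apply, Submodule.subtype_apply, ← hb, mulVecLin_apply,
    ← LinearMap.toMatrix'_mulVec, mulVec_mulVec] at k
  refine Eq.trans k ?_
  simp [Matrix.one_apply, eq_comm]

theorem inj {J : Matrix (Fin r) (Fin N) ℂ} (h : J.rank = c) {L : Matrix (Fin c) (Fin r) ℂ}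
    {B : Matrix (Fin N) (Fin c) ℂ} (h0 : (L * J * B).det ≠ 0) {v : Cm N}
    (hv : L *ᵥ (J *ᵥ v) = 0) : J *ᵥ v = 0 := by
  have k := (LinearMap.injective_iff_surjective_of_finrank_eq_finrank
    (f := L.mulVecLin ∘ₗ (LinearMap.range J.mulVecLin).subtype)
    (h.trans (Module.finrank_fin_fun ℂ).symm)).2 fun w =>
      ⟨⟨J *ᵥ (B *ᵥ ((L * J * B)⁻¹ *ᵥ w)), _, rfl⟩, by
        show L *ᵥ (J *ᵥ (B *ᵥ ((L * J * B)⁻¹ *ᵥ w))) = w
        rw [mulVec_mulVec, mulVec_mulVec, mulVec_mulVec, mul_nonsing_inv _ h0.isUnit, one_mulVec]⟩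
  exact congrArg Subtype.val (k (a₁ := ⟨J *ᵥ v, v, rfl⟩) (a₂ := 0) (hv.trans (map_zero _).symm))

end Surj

theorem surj : SURJ := by
  intro d N r c e P a hP ha hc G u hu
  have uc : Continuous (ev u) := Surj.ct (hm_ev u)
  obtain _ | e := e
  · have k : ∀ x, Jm P x = 0 := fun x => by
      ext i j
      rw [Jm, of_apply, MvPolynomial.totalDegree_eq_zero_iff_eq_C.1
        (Nat.le_zero.1 (hP i).totalDegree_le), MvPolynomial.pderiv_C, map_zero,
        Matrix.zero_apply]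
    refine ⟨0, fun z => ?_⟩
    rw [k, zero_mulVec]
    exact (Surj.canc0 uc (fun w hw => by
      obtain ⟨v, hv⟩ := hu w hw
      rw [← hv, k, zero_mulVec]) z).symm
  have hJ := hm_Jm hP (hm_ev a)
  have Jc : Continuous fun z => Jm P (ev a z) :=
    continuous_pi fun i => continuous_pi fun j => Surj.ct (hJ i j)
  obtain ⟨L, B, hL⟩ := Surj.frame _ (hc _ (ha 1 one_ne_zero))
  have hA : ∀ i j, Hm (d * e) fun z => (L * Jm P (ev a z) * B) i j := fun i j =>
    (Hm.sum Finset.univ fun l _ => Hm.sum Finset.univ fun k _ =>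
      (hJ k l).smul (L i k * B l j)).congr fun z => by
        simp only [Matrix.mul_apply, Finset.sum_mul, smul_eq_mul, mul_right_comm]
  have hδ : Hm (c * (d * e)) fun z => (L * Jm P (ev a z) * B).det := by
    simpa using Hm.det (m := fun _ => d * e) hA
  have hb : Hm (c * (d * e) + d)
      fun z => B *ᵥ cramer (L * Jm P (ev a z) * B) (L *ᵥ ev u z) := by
    refine Hm.map B.mulVecLin (Hm.pi fun i => ?_)
    have k := Hm.det (A := fun z => (L * Jm P (ev a z) * B).updateCol i (L *ᵥ ev u z))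
      (m := fun j => d * e + if j = i then d else 0) fun l j => by
        simp only [updateCol_apply]
        split_ifs
        · exact ((hm_ev u).map L.mulVecLin).apply l
        · exact hA l j
    simpa [Finset.sum_add_distrib, cramer_apply] using k
  have h0 : ∃ z, (L * Jm P (ev a z) * B).det ≠ 0 := ⟨1, by rw [hL, det_one]; exact one_ne_zero⟩
  refine Surj.desc Jc uc G _ _ _ hδ h0 hb fun z => sub_eq_zero.1 ?_
  have hc' := (Jc.matrix_mulVec (Surj.ct hb)).sub ((Surj.ct hδ).smul uc)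
  refine Surj.canc0 hc' (fun z z0 => Surj.canc (φ := fun w => w 0 * _)
    (fun w => (Surj.pj 0 w).mul (Surj.an hδ w))
    ⟨1, by simp [hL]⟩ hc' (fun w hw => ?_) z) z
  have w0 : w ≠ 0 := fun h => left_ne_zero_of_mul hw (congrFun h 0)
  obtain ⟨v, hv⟩ := hu w w0
  show Jm P (ev a w) *ᵥ (B *ᵥ cramer _ (L *ᵥ ev u w)) - (L * Jm P (ev a w) * B).det • ev u w = 0
  rw [← hv, ← mulVec_smul, ← mulVec_sub]
  refine Surj.inj (hc _ (ha w w0)) (right_ne_zero_of_mul hw) ?_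
  rw [mulVec_sub, mulVec_sub, mulVec_smul, mulVec_smul, mulVec_mulVec, mulVec_mulVec,
    mulVec_cramer, sub_self]

end Vale.Agent.P280Z.Mp
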