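import Vale.Agent.P280Z.Mp.Bf
import Vale.Agent.P280Z.Mp.Tub
import Vale.Agent.P280Z.Co.PuF

/-!
# P280, the evaluation map of the universal curve is a submersion
-/

open scoped ContDiff Topology Matrix
open Set Filter
open Vale.Agent.P272.K Vale.Agent.P281Z
open Vale.Agent.P280Z.Pu (ap p1 p2)
open Vale.Agent.P280Z.Pu.PuF (p1_ap p2_ap)

noncomputable section

namespace Vale.Agent.P280Z.Mp

namespace EsbH

variable {d N k : ℕ}

theorem fd_pair (a b : BF d N) (z v : Cm 2) :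
    fderiv ℂ (fun q : BF d N × Cm 2 => ev q.1 q.2) (a, z) (b, v) =
      ev b z + fderiv ℂ (ev a) z v := by
  have h2 := (an_ev (d := d) (N := N)).differentiable (by simp) (a, z)
  have h4 := congrArg (· b) (HasFDerivAt.comp (f := fun e => (e, z)) a h2.hasFDerivAt
    (hasFDerivAt_prodMk_left a z)).fderiv
  have h5 := congrArg (· v) (HasFDerivAt.comp (f := fun e => (a, e)) z h2.hasFDerivAt
    (hasFDerivAt_prodMk_right a z)).fderiv
  have h6 := congrArg (· b) ((evL d N z).fderiv (x := a))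
  refine Eq.trans ?_ (congrArg₂ (· + ·) (h4.symm.trans h6) h5.symm)
  show fderiv ℂ _ (a, z) (b, v) = fderiv ℂ _ (a, z) (b, 0) + fderiv ℂ _ (a, z) (0, v)
  rw [← map_add, Prod.mk_add_mk, add_zero, zero_add]

/-- the base coordinates -/
def L1 (k : ℕ) : Cm (k + 1) →L[ℂ] Cm k :=
  ContinuousLinearMap.pi fun i => ContinuousLinearMap.proj (Fin.castAdd 1 i)

/-- the fibre coordinate -/
def L2 (k : ℕ) (j : Fin 2) : Cm (k + 1) →L[ℂ] Cm 2 :=
  ContinuousLinearMap.pi fun i => if i = j then 0 else ContinuousLinearMap.proj (Fin.natAdd k 0)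

theorem L2_apply (j i : Fin 2) (u : Cm (k + 1)) :
    L2 k j u i = if i = j then 0 else p2 k 1 u 0 := by
  simp only [L2, ContinuousLinearMap.pi_apply]
  split_ifs <;> rfl

theorem zz_eq (j : Fin 2) : (fun u : Cm (k + 1) => zz j (p2 k 1 u 0)) =
    fun u => zz j 0 + L2 k j u := funext₂ fun u i => by
  simp only [zz, Pi.add_apply, L2_apply]
  split_ifs <;> simp

theorem zz_ne (j : Fin 2) (t : ℂ) : zz j t ≠ 0 := fun h => by simpa [zz] using congrFun h j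

theorem split (j : Fin 2) (t : ℂ) (y : Cm 2) (u : Cm k) :
    ∃ s : ℂ, y = y j • zz j t + L2 k j (ap u fun _ => s) := by
  refine ⟨y j.rev - y j * t, funext fun i => ?_⟩
  rw [Pi.add_apply, L2_apply, p2_ap]
  fin_cases i <;> fin_cases j <;> simp [zz]

end EsbH

open EsbH in
/-- **ESB** -/
theorem esb {n N r e d D k : ℕ} {V : Mf n} {P : Eqs r N} {pt : Cm N → V.X} (hC : Cone V P e pt)
    (_hd : 0 < d) {a : BF d N} {B : Set (Cm k)} {σ : Cm k → BF d N} (hS : Slice P D a B σ)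
    (j : Fin 2) {w : Cm (k + 1)} (hw : p1 k 1 w ∈ B) (hG : Gen P (σ (p1 k 1 w)))
    (χ : Chart n V.X) (hχ : At χ (pt (ev (σ (p1 k 1 w)) (zz j (p2 k 1 w 0))))) :
    ContinuousAt (fun u => pt (ev (σ (p1 k 1 u)) (zz j (p2 k 1 u 0)))) w ∧
      AnalyticAt ℂ (fun u => χ (pt (ev (σ (p1 k 1 u)) (zz j (p2 k 1 u 0))))) w ∧
      Function.Surjective
        (fderiv ℂ (fun u => χ (pt (ev (σ (p1 k 1 u)) (zz j (p2 k 1 u 0))))) w) := by
  have h1 : ContDiffAt ℂ ω (fun u => σ (p1 k 1 u)) w :=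
    ContDiffAt.comp (g := σ) (f := L1 k) w (hS.an _ hw).contDiffAt (L1 k).contDiff.contDiffAt
  have h2 : ContDiffAt ℂ ω (fun u : Cm (k + 1) => zz j (p2 k 1 u 0)) w := by
    rw [zz_eq]
    exact contDiffAt_const.add (L2 k j).contDiff.contDiffAt
  have hY := an_ev' h1 h2
  have hI : ∀ᶠ u in 𝓝 w, In P (ev (σ (p1 k 1 u)) (zz j (p2 k 1 u 0))) :=
    ((L1 k).continuous.continuousAt.eventually (hS.opn.mem_nhds hw)).mono fun u hu =>
      (hS.cd _ hu).1 _ (zz_ne j _)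
  obtain ⟨ρ, -, r1, -, -, r2, -⟩ := hC.loc _ hI.self_of_nhds χ hχ
  have h3 := (hY.continuousAt.eventually r2).mp (hI.mono fun _ k k' => k' k)
  have h4 : (fun u => χ (pt (ev (σ (p1 k 1 u)) (zz j (p2 k 1 u 0))))) =ᶠ[𝓝 w]
      fun u => ρ (ev (σ (p1 k 1 u)) (zz j (p2 k 1 u 0))) := h3.mono fun _ k => k.2
  have h5 : AnalyticAt ℂ (fun u => χ (pt (ev (σ (p1 k 1 u)) (zz j (p2 k 1 u 0))))) w :=
    (AnalyticAt.comp (g := ρ) (f := fun u => ev (σ (p1 k 1 u)) (zz j (p2 k 1 u 0))) r1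
      hY.analyticAt).congr h4.symm
  refine ⟨(ContinuousAt.comp (g := χ.symm)
    (f := fun u => χ (pt (ev (σ (p1 k 1 u)) (zz j (p2 k 1 u 0)))))
    (χ.continuousAt_symm (χ.map_source hχ.2)) h5.continuousAt).congr (h3.mono fun _ k => χ.left_inv k.1), h5, fun η => ?_⟩
  obtain ⟨t1, t2, -⟩ := (tub V P pt hC _ hI.self_of_nhds).2 χ ρ hχ r1
    (r2.mono fun _ k k' => (k k').2)
  obtain ⟨v, v1, rfl⟩ := t2 η
  obtain ⟨b, hb, rfl⟩ := hG _ (zz_ne j _) v v1
  obtain ⟨ξ, u, rfl⟩ := hS.span _ hw b hb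
  obtain ⟨s, hs⟩ := split j (p2 k 1 w 0) (ξ *ᵥ zz j (p2 k 1 w 0)) u
  have h6 : HasFDerivAt (fun u : Cm (k + 1) => (σ (p1 k 1 u), zz j (p2 k 1 u 0)))
      (((fderiv ℂ σ (p1 k 1 w)).comp (L1 k)).prod (L2 k j)) w := by
    refine (HasFDerivAt.comp (g := σ) (f := L1 k) w (hS.an _ hw).differentiableAt.hasFDerivAt
      (L1 k).hasFDerivAt).prodMk ?_
    rw [zz_eq]
    exact (L2 k j).hasFDerivAt.const_add _
  have h7 := HasFDerivAt.comp (g := ρ) w r1.differentiableAt.hasFDerivAt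
    (HasFDerivAt.comp (g := fun q : BF d N × Cm 2 => ev q.1 q.2) w
      (an_ev.differentiable (by simp) _).hasFDerivAt h6)
  refine ⟨ap u fun _ => s, ?_⟩
  rw [h4.fderiv_eq]
  refine (congrArg (· (ap u fun _ => s)) h7.fderiv).trans ?_
  refine (congrArg (fderiv ℂ ρ _) (fd_pair _ (fderiv ℂ σ (p1 k 1 w) (p1 k 1 (ap u fun _ => s)))
    _ (L2 k j (ap u fun _ => s)))).trans ?_
  rw [p1_ap, ev_add, ev_inf, hs]
  simp only [map_add, map_smul, euler, t1, smul_zero, zero_add]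
  exact add_comm _ _

end Vale.Agent.P280Z.Mp
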