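import Mathlib.Topology.Order.IntermediateValue
import Mathlib.Topology.Instances.Real.Lemmas
import Mathlib.Algebra.Order.BigOperators.Group.Finset
import Mathlib.Algebra.BigOperators.Fin
import Mathlib.Data.Fintype.Pigeonhole
import Mathlib.Tactic

/-!
# P280, rational curves: the balancing lemma
-/

open Set

noncomputable section

namespace Vale.Agent.P280Z.Mp.Cpt

/-- a gap in the ratios -/
theorem gap {d : ℕ} (α β : Fin (d + 1) → ℝ) (h0 : α 0 = β 0) :
    ∃ l : Fin (d + 1), ∀ i, ((l : ℝ) + 1) * β i ≤ (d + 1) * α i ∨ (d + 1) * α i ≤ (l : ℝ) * β i := by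
  by_contra h
  simp only [not_exists, not_forall, not_or, not_le] at h
  choose f h1 h2 using h
  have hp : ∀ l, 0 < β (f l) := fun l => by linarith [h1 l, h2 l]
  have key : ∀ l l', f l = f l' → l.val ≤ l'.val := by
    intro l l' e
    have a := h2 l
    have b := h1 l'
    rw [← e] at b
    have : (l.val : ℝ) < l'.val + 1 := lt_of_mul_lt_mul_right (a.trans b) (hp l).le
    have : l.val < l'.val + 1 := by exact_mod_cast this
    omega
  have hi : Function.Injective f := fun l l' e => Fin.ext (le_antisymm (key l l' e) (key l' l e.symm))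
  obtain ⟨l, hl⟩ := Finite.injective_iff_surjective.1 hi 0
  have a := h1 l
  have b := hp l
  rw [hl] at a b
  rw [h0] at a
  have : (d : ℝ) + 1 < l.val + 1 := lt_of_mul_lt_mul_right a b.le
  have : d + 1 < l.val + 1 := by exact_mod_cast this
  have := l.2
  omega

/-- the weights -/
def wt (d : ℕ) (t : ℝ) (i : Fin (d + 1)) : ℝ := (1 - t) ^ (d - i.val) * t ^ i.val

theorem sum_wt0 {d : ℕ} (x : Fin (d + 1) → ℝ) : ∑ i, wt d 0 i * x i = x 0 := by
  rw [Finset.sum_eq_single 0]
  · simp [wt]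
  · intro i _ hi
    have : i.val ≠ 0 := fun e => hi (Fin.ext e)
    simp [wt, this]
  · simp

theorem sum_wt1 {d : ℕ} (x : Fin (d + 1) → ℝ) : ∑ i, wt d 1 i * x i = x (Fin.last d) := by
  rw [Finset.sum_eq_single (Fin.last d)]
  · simp [wt]
  · intro i _ hi
    have h1 : i.val ≠ d := fun e => hi (Fin.ext e)
    have h2 := i.2
    have : d - i.val ≠ 0 := by omega
    simp [wt, this]
  · simp

theorem half {d : ℕ} (x : Fin (d + 1) → ℝ) (p : Fin (d + 1) → Prop) [DecidablePred p] (S : ℝ)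
    (hS : 0 < S) (h : ∑ i, (if p i then x i else 0) = S / 2) :
    ∃ i, p i ∧ S / (2 * (d + 1)) ≤ x i := by
  have hd : (0 : ℝ) < d + 1 := by positivity
  have e : ∑ _i : Fin (d + 1), S / (2 * (d + 1)) ≤ ∑ i, (if p i then x i else 0) := by
    rw [h, Finset.sum_const, Finset.card_univ, Fintype.card_fin, nsmul_eq_mul]
    push_cast
    apply le_of_eq
    field_simp
  obtain ⟨i, -, hi⟩ := Finset.exists_le_of_sum_le Finset.univ_nonempty e
  by_cases hp : p i
  · exact ⟨i, hp, by simpa [hp] using hi⟩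
  · rw [if_neg hp] at hi
    have : 0 < S / (2 * (d + 1)) := by positivity
    linarith

/-- the balancing lemma -/
theorem bal {d : ℕ} (α β : Fin (d + 1) → ℝ) (hβ : ∀ i, 0 ≤ β i) (h0 : α 0 = β 0) (hb0 : 0 < β 0)
    (h1 : α (Fin.last d) = 0) (hb1 : 0 < β (Fin.last d)) :
    ∃ t : ℝ, 0 < t ∧ t < 1 ∧ 0 < ∑ i, wt d t i * β i ∧ ∃ i i',
      1 / (4 * ((d : ℝ) + 1) ^ 3) * (∑ i, wt d t i * β i) ^ 2 ≤
        (wt d t i * α i) * (wt d t i' * β i') - (wt d t i' * α i') * (wt d t i * β i) := by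
  classical
  obtain ⟨l, hl⟩ := gap α β h0
  have hld : (l.val : ℝ) ≤ d := by exact_mod_cast Nat.lt_succ_iff.1 l.2
  have hl0 : (0 : ℝ) ≤ l.val := Nat.cast_nonneg _
  have hd : (0 : ℝ) < d + 1 := by positivity
  set p : Fin (d + 1) → Prop := fun i => ((l : ℝ) + 1) * β i ≤ (d + 1) * α i with hp
  set f : ℝ → ℝ := fun t => ∑ i, wt d t i * (if p i then β i else -β i) with hf
  have hc : Continuous f := by
    refine continuous_finsetSum _ fun i _ => Continuous.mul ?_ continuous_const
    unfold wt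
    fun_prop
  have f0 : 0 < f 0 := by
    have : p 0 := by
      show _ ≤ _
      rw [h0]
      nlinarith
    simp only [hf, sum_wt0, if_pos this, hb0]
  have f1 : f 1 < 0 := by
    have : ¬ p (Fin.last d) := by
      show ¬ _ ≤ _
      rw [h1, not_le]
      nlinarith
    simp only [hf, sum_wt1, if_neg this]
    linarith
  obtain ⟨t, ⟨t0, t1⟩, ht⟩ : (0 : ℝ) ∈ f '' Ioo 0 1 :=
    intermediate_value_Ioo' zero_le_one hc.continuousOn ⟨f1, f0⟩
  have hw : ∀ i, 0 < wt d t i := fun i => mul_pos (pow_pos (by linarith) _) (pow_pos t0 _)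
  set S := ∑ i, wt d t i * β i with hS
  have hS0 : 0 < S := Finset.sum_pos' (fun i _ => mul_nonneg (hw i).le (hβ i))
    ⟨0, Finset.mem_univ _, mul_pos (hw 0) hb0⟩
  have eA : ∑ i, (if p i then wt d t i * β i else 0) = S / 2 := by
    have : ∑ i, (if p i then wt d t i * β i else 0) = (S + f t) / 2 := by
      rw [hS, hf, ← Finset.sum_add_distrib, Finset.sum_div]
      refine Finset.sum_congr rfl fun i _ => ?_
      split_ifs <;> ring
    rw [this, ht, add_zero]
  have eB : ∑ i, (if ¬ p i then wt d t i * β i else 0) = S / 2 := by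
    have : ∑ i, (if ¬ p i then wt d t i * β i else 0) = (S - f t) / 2 := by
      rw [hS, hf, ← Finset.sum_sub_distrib, Finset.sum_div]
      refine Finset.sum_congr rfl fun i _ => ?_
      by_cases h : p i
      · simp [h]
      · simp only [h, not_false_eq_true, if_true, if_false]
        ring
    rw [this, ht, sub_zero]
  obtain ⟨i, hi, ki⟩ := half _ p S hS0 eA
  obtain ⟨i', hi', ki'⟩ := half _ (fun i => ¬ p i) S hS0 eB
  refine ⟨t, t0, t1, hS0, i, i', ?_⟩
  have q1 : ((l : ℝ) + 1) * β i ≤ (d + 1) * α i := hi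
  have q2 : (d + 1) * α i' ≤ (l : ℝ) * β i' := (hl i').resolve_left hi'
  have q3 : β i * β i' ≤ (d + 1) * (α i * β i' - α i' * β i) := by
    nlinarith [mul_le_mul_of_nonneg_right q1 (hβ i'), mul_le_mul_of_nonneg_right q2 (hβ i)]
  have hk : 0 < S / (2 * (d + 1)) := by positivity
  have q4 : S / (2 * (d + 1)) * (S / (2 * (d + 1))) ≤ (wt d t i * β i) * (wt d t i' * β i') :=
    mul_le_mul ki ki' hk.le (hk.le.trans ki)
  have q5 := mul_le_mul_of_nonneg_left q3 (mul_pos (hw i) (hw i')).le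
  have q6 : 1 / (4 * ((d : ℝ) + 1) ^ 3) * S ^ 2 =
      S / (2 * (d + 1)) * (S / (2 * (d + 1))) / (d + 1) := by
    field_simp
    ring
  rw [q6, div_le_iff₀ hd]
  nlinarith

end Vale.Agent.P280Z.Mp.Cpt
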