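import Vale.Agent.P280Z.Mp.Bf0
import Vale.Agent.P280Z.Mp.CptA

/-!
# P280, rational curves: properness of the action and compactness
-/

open scoped Topology Matrix Matrix.Norms.Elementwise
open Set Filter
open Vale.Agent.P272.K

noncomputable section

namespace Vale.Agent.P280Z.Mp

namespace Cpt

variable {d N r e : ℕ} {P : Eqs r N}

theorem cont_ev : Continuous fun q : BF d N × Cm 2 => ev q.1 q.2 := by
  unfold ev
  fun_prop

theorem ev_le (a : BF d N) (z : Cm 2) : ‖ev a z‖ ≤ (d + 1) * ‖a‖ * ‖z‖ ^ d := by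
  refine (norm_sum_le_of_le _ (n := fun _ => ‖a‖ * ‖z‖ ^ d) fun i _ => ?_).trans ?_
  · rw [norm_smul, norm_mul, norm_pow, norm_pow, mul_comm]
    refine mul_le_mul (norm_le_pi_norm a i) ?_ (by positivity) (norm_nonneg _)
    rw [show ‖z‖ ^ d = ‖z‖ ^ (d - i.val) * ‖z‖ ^ i.val by
      rw [← pow_add, Nat.sub_add_cancel i.is_le]]
    gcongr
    · exact norm_le_pi_norm z 0
    · exact norm_le_pi_norm z 1
  · rw [Finset.sum_const, Finset.card_univ, Fintype.card_fin, nsmul_eq_mul]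
    push_cast
    rw [mul_assoc]

theorem low {a : BF d N} (h : Nz a) : ∃ m : ℝ, 0 < m ∧ ∀ z, m * ‖z‖ ^ d ≤ ‖ev a z‖ := by
  have hc : Continuous fun z : Cm 2 => ‖ev a z‖ :=
    (cont_ev.comp (continuous_const.prodMk continuous_id)).norm
  obtain ⟨y, hy, hm⟩ := (isCompact_sphere (0 : Cm 2) 1).exists_isMinOn
    (NormedSpace.sphere_nonempty.2 zero_le_one) hc.continuousOn
  have hy1 : ‖y‖ = 1 := by simpa using hy
  have hy0 : y ≠ 0 := fun e => by simp [e] at hy1
  refine ⟨‖ev a y‖, norm_pos_iff.2 (h y hy0), fun z => ?_⟩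
  by_cases hz : z = 0
  · have := ev_arg a 0 y
    rw [zero_smul] at this
    rw [hz, this, norm_smul, norm_pow, norm_zero, norm_zero, mul_comm]
  · have hn : 0 < ‖z‖ := norm_pos_iff.2 hz
    have e1 : z = (‖z‖ : ℂ) • ((‖z‖ : ℂ)⁻¹ • z) := by
      rw [smul_smul, mul_inv_cancel₀ (by exact_mod_cast hn.ne'), one_smul]
    have e2 : ((‖z‖ : ℂ)⁻¹ • z) ∈ Metric.sphere (0 : Cm 2) 1 := by
      simp [norm_smul, hn.ne']
    have e3 : ‖ev a z‖ = ‖z‖ ^ d * ‖ev a ((‖z‖ : ℂ)⁻¹ • z)‖ := by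
      conv_lhs => rw [e1, ev_arg, norm_smul, norm_pow, Complex.norm_real, norm_norm]
    rw [e3, mul_comm]
    exact mul_le_mul_of_nonneg_left (hm e2) (by positivity)

theorem bound {a : BF d N} (h : Nz a) : ∃ m M : ℝ, 0 < m ∧ ∀ᶠ b in 𝓝 a, ∀ z,
    m * ‖z‖ ^ d ≤ ‖ev b z‖ ∧ ‖ev b z‖ ≤ M * ‖z‖ ^ d := by
  obtain ⟨m, hm, h1⟩ := low h
  have hd : (0 : ℝ) < d + 1 := by positivity
  refine ⟨m / 2, (d + 1) * ‖a‖ + m / 2, by positivity, ?_⟩
  filter_upwards [Metric.ball_mem_nhds a (show 0 < m / 2 / (d + 1) by positivity)] with b hb z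
  have h2 : (d + 1) * ‖b - a‖ ≤ m / 2 := by
    have := (lt_div_iff₀ hd).1 (mem_ball_iff_norm.1 hb)
    linarith
  have h3 := (ev_le (b - a) z).trans (mul_le_mul_of_nonneg_right h2 (by positivity))
  rw [ev_sub] at h3
  have h4 := ev_le a z
  have h5 := norm_sub_norm_le (ev b z) (ev a z)
  have h6 := norm_sub_norm_le (ev a z) (ev b z)
  rw [norm_sub_rev] at h6
  constructor
  · linarith [h1 z]
  · linarith

/-- curves with base points are constant -/
theorem rk1 (hP : Hom P e) : ∀ (d : ℕ), Low P d → ∀ b : BF d N, (∀ z, Pv P (ev b z) = 0) →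
    (Crv P b ∧ 0 < d) ∨ ∃ x : Cm N, ∀ z, ∃ c : ℂ, ev b z = c • x
  | 0, _, b, _ => Or.inr ⟨b 0, fun z => ⟨1, by simp [ev]⟩⟩
  | d + 1, hL, b, hb => by
    by_cases hc : Crv P b
    · exact Or.inl ⟨hc, d.succ_pos⟩
    right
    simp only [Crv, In, not_forall, hb, and_true, not_not] at hc
    obtain ⟨y, hy, h0⟩ := hc
    obtain ⟨ψ, ⟨b', hb'⟩, hψ⟩ := (hm_ev b).div hy h0
    have hy' : ∃ w, lf y w ^ e ≠ 0 := by
      by_cases h1 : y 1 = 0
      · have h2 : y 0 ≠ 0 := fun e => hy (funext fun k => by fin_cases k <;> assumption)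
        exact ⟨![0, 1], pow_ne_zero _ (by simp [lf, h2])⟩
      · exact ⟨![1, 0], pow_ne_zero _ (by simp [lf, h1])⟩
    have hz : ∀ z, Pv P (ev b' z) = 0 := ((hm_lf y).pow e).cancel hy' (hm_Pv hP (hm_ev b'))
      fun z => by rw [← Pv_smul hP, ← hb', ← hψ, hb]
    rcases rk1 hP d (fun d' h1 h2 => hL d' h1 (by omega)) b' hz with ⟨h1, h2⟩ | ⟨x, hx⟩
    · exact absurd h1 (hL d h2 d.lt_succ_self b')
    · refine ⟨x, fun z => ?_⟩
      obtain ⟨c, hc⟩ := hx z
      exact ⟨lf y z * c, by rw [hψ, hb', hc, smul_smul]⟩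

/-- the test -/
def Tst (c : ℝ) (b : BF d N) : Prop :=
  ∃ i i' j, c ≤ ‖b i j‖ * ‖b i'‖ - ‖b i' j‖ * ‖b i‖

theorem tst_closed (c : ℝ) : IsClosed {b : BF d N | Tst c b} := by
  simp only [Tst, ofPred_exists]
  refine isClosed_iUnion_of_finite fun i => isClosed_iUnion_of_finite fun i' =>
    isClosed_iUnion_of_finite fun j => isClosed_le continuous_const ?_
  fun_prop

theorem tst_rk1 {c : ℝ} (hc : 0 < c) {b : BF d N} (h : Tst c b) {x : Cm N}
    (hx : ∀ z, ∃ c : ℂ, ev b z = c • x) : False := by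
  choose f hf using hx
  have hb : ∀ i, ∃ s : ℂ, b i = s • x := fun i => by
    have e := (congrFun (co_ev b) i).symm
    simp only [co, hf, smul_smul, ← Finset.sum_smul] at e
    exact ⟨_, e⟩
  obtain ⟨i, i', j, h⟩ := h
  obtain ⟨s, hs⟩ := hb i
  obtain ⟨s', hs'⟩ := hb i'
  rw [hs, hs', Pi.smul_apply, Pi.smul_apply, norm_smul, norm_smul, norm_smul, norm_smul] at h
  nlinarith

theorem ev_diag (a : BF d N) (p q : ℂ) (z : Cm 2) :
    ev a (!![p, 0; 0, q] *ᵥ z) = ev (fun i => (p ^ (d - i.val) * q ^ i.val) • a i) z := by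
  refine Finset.sum_congr rfl fun i _ => ?_
  rw [smul_smul]
  congr 1
  simp [Matrix.mulVec, dotProduct, Fin.sum_univ_two]
  ring

/-- normal position -/
theorem pos {a : BF (d + 1) N} (h : Nz a) : ∃ (g : M2) (j : Fin N), g.det ≠ 0 ∧
    ‖act a g 0 j‖ = ‖act a g 0‖ ∧ act a g 0 ≠ 0 ∧ act a g (Fin.last _) j = 0 ∧
      act a g (Fin.last _) ≠ 0 := by
  have h1 : a 0 ≠ 0 := by
    rw [← ev_fst a]
    exact h _ fun e => one_ne_zero (congrFun e 0)
  obtain ⟨j0, hj0⟩ := Function.ne_iff.1 h1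
  haveI : Nonempty (Fin N) := ⟨j0⟩
  obtain ⟨j, hj⟩ := Finite.exists_max fun j => ‖a 0 j‖
  have hj' : ‖a 0 j‖ = ‖a 0‖ := le_antisymm (norm_le_pi_norm _ j)
    ((pi_norm_le_iff_of_nonneg (norm_nonneg _)).2 hj)
  obtain ⟨y, hy, h0⟩ := ((hm_ev a).apply j).root
  have hy1 : y 1 ≠ 0 := fun e => by
    have e1 : y = y 0 • ![1, 0] := funext fun k => by fin_cases k <;> simp [e]
    have e2 : y 0 ≠ 0 := fun e' => hy (by rw [e1, e', zero_smul])
    rw [e1, ev_arg, ev_fst, Pi.smul_apply, smul_eq_zero] at h0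
    rcases h0 with k | k
    · exact pow_ne_zero _ e2 k
    · rw [k, norm_zero] at hj'
      exact h1 (norm_eq_zero.1 hj'.symm)
  have g0 : act a !![1, y 0; 0, y 1] 0 = a 0 := by
    rw [← ev_fst (act a _), ev_act, ← ev_fst a]
    exact congrArg (ev a) (funext fun k => by fin_cases k <;> simp)
  have g1 : act a !![1, y 0; 0, y 1] (Fin.last _) = ev a y := by
    rw [← ev_snd (act a _), ev_act]
    exact congrArg (ev a) (funext fun k => by fin_cases k <;> simp)
  refine ⟨!![1, y 0; 0, y 1], j, by simp [Matrix.det_fin_two, hy1], ?_, ?_, ?_, ?_⟩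
  · rw [g0, hj']
  · rwa [g0]
  · rw [g1, h0]
  · rw [g1]
    exact h y hy

/-- balanced position -/
theorem balanced {a : BF (d + 1) N} (h : Nz a) : ∃ g : M2, g.det ≠ 0 ∧ ‖act a g‖ ≤ 1 ∧
    Tst (1 / (4 * (((d + 1 : ℕ) : ℝ) + 1) ^ 3)) (act a g) := by
  obtain ⟨g, j, hg, h0, h0', h1, h1'⟩ := pos h
  set a' := act a g with ha'
  obtain ⟨t, t0, t1, hS, i, i', hi⟩ := bal (fun i => ‖a' i j‖) (fun i => ‖a' i‖)
    (fun i => norm_nonneg _) h0 (norm_pos_iff.2 h0') (by simp [h1]) (norm_pos_iff.2 h1')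
  set S := ∑ i, wt (d + 1) t i * ‖a' i‖ with hSd
  obtain ⟨u, hu⟩ := IsAlgClosed.exists_pow_nat_eq ((S : ℂ)⁻¹) d.succ_pos
  have hS' : (S : ℂ) ≠ 0 := by exact_mod_cast hS.ne'
  have hu0 : u ≠ 0 := fun e => by
    rw [e, zero_pow d.succ_ne_zero] at hu
    exact inv_ne_zero hS' hu.symm
  have hw : ∀ i, 0 < wt (d + 1) t i := fun i => mul_pos (pow_pos (by linarith) _) (pow_pos t0 _)
  have eb : act a (g * !![u * (1 - t : ℝ), 0; 0, u * t]) =
      fun i => ((wt (d + 1) t i / S : ℝ) : ℂ) • a' i := by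
    rw [← act_act]
    refine (ev_inj fun z => (ev_act _ _ z).trans (ev_diag _ _ _ z)).trans (funext fun i => ?_)
    congr 1
    rw [mul_pow, mul_pow, mul_mul_mul_comm, ← pow_add, Nat.sub_add_cancel i.is_le, hu, wt]
    push_cast
    ring
  have en : ∀ i, ‖((wt (d + 1) t i / S : ℝ) : ℂ)‖ = wt (d + 1) t i / S := fun i => by
    rw [Complex.norm_real, Real.norm_of_nonneg (div_pos (hw i) hS).le]
  refine ⟨g * !![u * (1 - t : ℝ), 0; 0, u * t], ?_, ?_, i, i', j, ?_⟩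
  · rw [Matrix.det_mul, Matrix.det_fin_two_of, mul_zero, sub_zero]
    refine mul_ne_zero hg (mul_ne_zero (mul_ne_zero hu0 ?_) (mul_ne_zero hu0 ?_))
    · exact_mod_cast (show 1 - t ≠ 0 by linarith)
    · exact_mod_cast t0.ne'
  · rw [eb]
    refine (pi_norm_le_iff_of_nonneg zero_le_one).2 fun k => ?_
    rw [norm_smul, en, div_mul_eq_mul_div, div_le_one hS]
    exact Finset.single_le_sum (f := fun i => wt (d + 1) t i * ‖a' i‖)
      (fun i _ => mul_nonneg (hw i).le (norm_nonneg _)) (Finset.mem_univ k)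
  · rw [eb]
    simp only [Pi.smul_apply, norm_smul, en]
    have := div_le_div_of_nonneg_right hi (pow_pos hS 2).le
    rw [mul_div_assoc, div_self (pow_pos hS 2).ne', mul_one] at this
    refine this.trans (le_of_eq ?_)
    field_simp

end Cpt

open Cpt

theorem prop_ : PROP := by
  intro d N a a' hd h h'
  obtain ⟨m, M, hm, h1⟩ := bound h
  obtain ⟨m', M', hm', h2⟩ := bound h'
  refine ⟨{g | ∀ z, m * ‖g *ᵥ z‖ ^ d ≤ M' * ‖z‖ ^ d ∧ m' * ‖z‖ ^ d ≤ M * ‖g *ᵥ z‖ ^ d}, ?_, ?_, ?_⟩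
  · refine Metric.isCompact_of_isClosed_isBounded ?_ ?_
    · simp only [ofPred_forall, ofPred_and]
      refine isClosed_iInter fun z => IsClosed.inter (isClosed_le ?_ continuous_const)
        (isClosed_le continuous_const ?_) <;> fun_prop
    · refine (isBounded_iff_forall_norm_le).2 ⟨max 1 (M' / m), fun g hg => ?_⟩
      refine (Matrix.norm_le_iff (le_max_of_le_left zero_le_one)).2 fun i j => ?_
      have k1 := (hg (Pi.single j 1)).1
      rw [Pi.norm_single, norm_one, one_pow, mul_one, Matrix.mulVec_single_one] at k1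
      refine (norm_le_pi_norm (g.col j) i).trans ?_
      by_contra k2
      rw [not_le, max_lt_iff, div_lt_iff₀ hm] at k2
      have k3 := le_self_pow₀ k2.1.le hd.ne'
      nlinarith
  · intro g hg h0
    obtain ⟨z, hz, e⟩ := Matrix.exists_mulVec_eq_zero_iff.2 h0
    have k := (hg z).2
    rw [e, norm_zero, zero_pow hd.ne', mul_zero] at k
    have := mul_pos hm' (pow_pos (norm_pos_iff.2 hz) d)
    linarith
  · filter_upwards [h1.prod_nhds h2] with b hb g hg z
    have e : ev b.2 z = ev b.1 (g *ᵥ z) := by rw [hg, ev_act]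
    have k1 := hb.1 (g *ᵥ z)
    have k2 := hb.2 z
    rw [← e] at k1
    exact ⟨k1.1.trans k2.2, k2.1.trans k1.2⟩

theorem cpt : CPT := by
  intro d N r e P hP hd hL
  obtain ⟨d, rfl⟩ := Nat.exists_eq_succ_of_ne_zero hd.ne'
  refine ⟨Metric.closedBall 0 1 ∩ ({b | ∀ z, Pv P (ev b z) = 0} ∩
    {b | Tst (1 / (4 * (((d + 1 : ℕ) : ℝ) + 1) ^ 3)) b}), ?_, ?_, ?_⟩
  · refine (isCompact_closedBall _ _).inter_right (IsClosed.inter ?_ (tst_closed _))
    simp only [ofPred_forall]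
    refine isClosed_iInter fun z => isClosed_eq (continuous_pi fun k => ?_) continuous_const
    have c1 : Continuous fun b : BF (d + 1) N => ev b z := by
      unfold ev
      fun_prop
    exact (MvPolynomial.continuous_eval (P k)).comp c1
  · rintro a ⟨-, h1, h2⟩
    rcases rk1 hP _ hL a h1 with h | ⟨x, hx⟩
    · exact h.1
    · exact (tst_rk1 (by positivity) h2 hx).elim
  · intro a ha
    obtain ⟨g, hg, h1, h2⟩ := balanced (a := a) fun z hz => (ha z hz).1
    refine ⟨g, hg, mem_closedBall_zero_iff.2 h1, fun z => ?_, h2⟩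
    rw [ev_act]
    by_cases hz : g *ᵥ z = 0
    · have k := ha ![1, 0] fun e => one_ne_zero (congrFun e 0)
      have := ev_arg a 0 ![1, 0]
      rw [zero_smul] at this
      rw [hz, this, Pv_smul hP, k.2, smul_zero]
    · exact (ha _ hz).2

end Vale.Agent.P280Z.Mp
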