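import Vale.Agent.P280Z.Mp.Bf0

/-!
# P280, row SMO: the space of curves is cut out by the independent equations
-/

open scoped Manifold ContDiff Topology Matrix
open Set Filter Metric
open Vale.Agent.P272.K Vale.Agent.P281Z

noncomputable section

namespace Vale.Agent.P280Z.Mp

namespace Smo

variable {d N : ℕ}

theorem cont_ev (z : Cm 2) : Continuous fun a : BF d N => ev a z := by
  unfold ev
  fun_prop

theorem near {a : BF d N} (h : Nz a) : ∀ᶠ a' in 𝓝 a, Nz a' := by
  have hc : Continuous fun p : BF d N × Cm 2 => ev p.1 p.2 := by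
    unfold ev
    fun_prop
  filter_upwards [(isCompact_sphere (0 : Cm 2) 1).eventually_forall_of_forall_eventually
    (x₀ := a) (P := fun a' z => ev a' z ≠ 0) fun z hz => hc.continuousAt.eventually_ne
      (h z (ne_of_mem_sphere hz one_ne_zero))] with a' k z hz h0
  refine k (((‖z‖⁻¹ : ℝ) : ℂ) • z) ?_ (by rw [ev_arg, h0, smul_zero])
  rw [mem_sphere_zero_iff_norm, norm_smul, Complex.norm_real, norm_inv, norm_norm,
    inv_mul_cancel₀ (norm_ne_zero_iff.2 hz)]

end Smo

open Smo in
theorem smo_of (hT : TUB) (hS : SURJ) : SMO := by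
  intro n N r e d V P pt a h ha hg F _ _ q hq
  have hP : ∀ (a' : BF d N) z, ev (Psi P e a') z = Pv P (ev a' z) := ev_Psi h.hom
  have key : ∀ᶠ a' in 𝓝 a, q (Psi P e a') = 0 → Psi P e a' = 0 := by
    by_contra hc
    have hne : NeBot (𝓝 a ⊓ 𝓟 {a' | ¬ (q (Psi P e a') = 0 → Psi P e a' = 0)}) :=
      frequently_iff_neBot.1 (not_eventually.1 hc)
    obtain ⟨U, hU⟩ := Ultrafilter.exists_le
      (𝓝 a ⊓ 𝓟 {a' | ¬ (q (Psi P e a') = 0 → Psi P e a' = 0)})
    have h1 : (U : Filter (BF d N)) ≤ 𝓝 a := hU.trans inf_le_left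
    have h2 : ∀ᶠ a' in (U : Filter (BF d N)), q (Psi P e a') = 0 ∧ Psi P e a' ≠ 0 :=
      mem_of_superset (le_principal_iff.1 (hU.trans inf_le_right))
        fun a' k => Classical.not_imp.1 k
    obtain ⟨u, hu⟩ : ∃ u : BF d N → BF (d * e) r,
        ∀ a', u a' = ((‖Psi P e a'‖⁻¹ : ℝ) : ℂ) • Psi P e a' := ⟨_, fun _ => rfl⟩
    obtain ⟨u0, k1, k2⟩ := (isCompact_sphere (0 : BF (d * e) r) 1).ultrafilter_le_nhds (U.map u)
      (le_principal_iff.2 (h2.mono fun a' k => by
        rw [mem_sphere_zero_iff_norm, hu, norm_smul, Complex.norm_real, norm_inv, norm_norm,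
          inv_mul_cancel₀ (norm_ne_zero_iff.2 k.2)]))
    have k3 : Tendsto u U (𝓝 u0) := k2
    have k4 : q u0 = 0 := tendsto_nhds_unique ((q.continuous.tendsto u0).comp k3)
      (tendsto_const_nhds.congr' (h2.mono fun a' k => by
        change 0 = q (u a')
        rw [hu, map_smul, k.1, smul_zero]))
    obtain ⟨b, hb⟩ := hS (c := N - (n + 1)) P a h.hom ha
      (fun x hx => by have := h.rk x hx; omega) hg u0 fun z hz => by
        by_contra hn
        obtain ⟨φ, p1, p2⟩ := Submodule.exists_le_ker_of_notMem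
          (p := LinearMap.range (Jm P (ev a z)).mulVecLin) (v := ev u0 z) hn
        have t1 : Tendsto (fun a' => ev (u a') z) U (𝓝 (ev u0 z)) :=
          ((cont_ev z).tendsto u0).comp k3
        have t2 : ∀ ε : ℝ, 0 < ε → ‖φ (ev u0 z)‖ ≤ ε * ‖ev u0 z‖ := fun ε hε => by
          have t3 := (((cont_ev z).tendsto a).mono_left h1).eventually
            ((hT V P pt h _ (ha z hz)).1 (LinearMap.toContinuousLinearMap φ)
              (fun v => p2 ⟨v, rfl⟩) ε hε)
          refine le_of_tendsto_of_tendsto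
            (((LinearMap.toContinuousLinearMap φ).continuous.tendsto _).comp t1).norm
            (t1.norm.const_mul ε) (t3.mono fun a' k => ?_)
          change ‖LinearMap.toContinuousLinearMap φ (ev (u a') z)‖ ≤ ε * ‖ev (u a') z‖
          rw [hu, ev_smul, hP, map_smul, norm_smul, norm_smul, mul_left_comm]
          exact mul_le_mul_of_nonneg_left k (norm_nonneg _)
        refine p1 (norm_le_zero_iff.1 (le_of_forall_pos_le_add fun ε hε => ?_))
        refine (t2 (ε / (‖ev u0 z‖ + 1)) (by positivity)).trans ?_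
        rw [zero_add, div_mul_eq_mul_div, div_le_iff₀ (by positivity)]
        exact mul_le_mul_of_nonneg_left (by linarith) hε.le
    have e1 : dPsi P e a b = u0 := by
      rw [dPsi, funext hb]
      exact co_ev u0
    have e2 := hq b (e1 ▸ k4)
    have e3 : dPsi P e a b = 0 := by
      rw [dPsi, funext (show ∀ z, _ = _ from e2)]
      funext i
      simp [co]
    rw [← e1, e3] at k1
    simp at k1
  filter_upwards [key, near (a := a) fun z hz => (ha z hz).1] with a' k1 k2 k3 z hz
  refine ⟨k2 z hz, ?_⟩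
  rw [← hP, k1 k3, ev_zero]

end Vale.Agent.P280Z.Mp
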