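import Vale.Agent.P280Z.Mp.Bf
import Vale.Agent.P280Z.Mp.Smo
import Vale.Agent.P280Z.Mp.Tub
import Vale.Agent.P280Z.Mp.Surj
import Vale.Agent.P280Z.Mp.Free
import Vale.Agent.P280Z.Mp.Cpt

/-!
# P280, slices for the action on the space of curves
-/

open scoped ContDiff Topology Matrix Matrix.Norms.Elementwise
open Set Filter Function Module
open Vale.Agent.P272.K Vale.Agent.P281Z

noncomputable section

namespace Vale.Agent.P280Z.Mp

namespace Slc

section gen
variable {E F : Type} [NormedAddCommGroup E] [NormedSpace ℂ E] [NormedAddCommGroup F]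
  [NormedSpace ℂ F]

theorem ift [FiniteDimensional ℂ E] [FiniteDimensional ℂ F] {f : E → F} {x : E} {y : F}
    (hf : ContDiffAt ℂ ω f x) (hi : ∀ v, fderiv ℂ f x v = 0 → v = 0)
    (hr : finrank ℂ E = finrank ℂ F) (hy : f x = y) :
    ∃ g : F → E, ContDiffAt ℂ ω g y ∧ g y = x ∧ (∀ᶠ u in 𝓝 x, g (f u) = u) ∧
      ∀ᶠ z in 𝓝 y, f (g z) = z := by
  subst hy
  have := FiniteDimensional.complete ℂ E
  let L : E ≃L[ℂ] F := (LinearMap.linearEquivOfInjective (fderiv ℂ f x : E →ₗ[ℂ] F)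
    ((injective_iff_map_eq_zero _).2 hi) hr).toContinuousLinearEquiv
  have h1 : HasFDerivAt f (L : E →L[ℂ] F) x := (hf.differentiableAt (by simp)).hasFDerivAt
  have h2 := hf.hasStrictFDerivAt' h1 (by simp)
  exact ⟨hf.localInverse h1 (by simp), hf.to_localInverse h1 (by simp),
    hf.localInverse_apply_image h1 (by simp), h2.eventually_left_inverse,
    h2.eventually_right_inverse⟩

theorem fd_left {f : E → F} {g : F → E} {x : E} (hf : ContDiffAt ℂ ω f x)
    (hg : ContDiffAt ℂ ω g (f x)) (h : ∀ᶠ y in 𝓝 x, g (f y) = y) {v : E}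
    (hv : fderiv ℂ f x v = 0) : v = 0 := by
  have h1 : fderiv ℂ (g ∘ f) x = ContinuousLinearMap.id ℂ E :=
    (EventuallyEq.fderiv_eq (f := id) h).trans fderiv_id
  rw [fderiv_comp x (hg.differentiableAt (by simp)) (hf.differentiableAt (by simp))] at h1
  have h2 := congrArg (· v) h1
  simp only [ContinuousLinearMap.comp_apply, hv, map_zero] at h2
  exact h2.symm

theorem lin1 [FiniteDimensional ℂ E] [FiniteDimensional ℂ F] {k : ℕ} (T : Submodule ℂ E)
    (I : F →ₗ[ℂ] E) (hI : ∀ ξ, I ξ = 0 → ξ = 0) (hT : ∀ ξ, I ξ ∈ T)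
    (hk : k + finrank ℂ F = finrank ℂ T) :
    ∃ ι : Cm k →L[ℂ] E, (∀ u, ι u ∈ T) ∧ ∀ ξ u, ι u + I ξ = 0 → ξ = 0 ∧ u = 0 := by
  obtain ⟨W, hW⟩ := (LinearMap.range (I.codRestrict T hT)).exists_isCompl
  have h1 : Injective (I.codRestrict T hT) := (injective_iff_map_eq_zero _).2 fun ξ h =>
    hI ξ (congrArg Subtype.val h)
  have h2 := Submodule.finrank_add_eq_of_isCompl hW
  rw [LinearMap.finrank_range_of_inj h1] at h2
  obtain ⟨e⟩ := FiniteDimensional.nonempty_linearEquiv_of_finrank_eq (R := ℂ) (M := Cm k)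
    (M' := W) (by rw [finrank_fin_fun]; omega)
  refine ⟨LinearMap.toContinuousLinearMap (T.subtype ∘ₗ W.subtype ∘ₗ e.toLinearMap),
    fun u => (e u).1.2, fun ξ u h => ?_⟩
  have h3 : (e u).1 = 0 := Submodule.disjoint_def.1 hW.disjoint _
    ⟨-ξ, Subtype.ext ((map_neg I ξ).trans (eq_neg_of_add_eq_zero_left h).symm)⟩ (e u).2
  have h4 : u = 0 := e.map_eq_zero_iff.1 (Subtype.ext h3)
  rw [h4, map_zero, zero_add] at h
  exact ⟨hI ξ h, h4⟩

end gen

variable {n N r e d D k : ℕ} {P : Eqs r N} {a : BF d N}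

theorem rk4 : finrank ℂ M2 = 4 := by simp [Module.finrank_matrix]

theorem fd_m {E : Type} [NormedAddCommGroup E] [NormedSpace ℂ E] {σ : E → BF d N} {v : E}
    (h : ContDiffAt ℂ ω σ v) (ξ : M2) (u : E) :
    fderiv ℂ (fun x : M2 × E => act (σ x.2) x.1) (1, v) (ξ, u) = fderiv ℂ σ v u + inf (σ v) ξ := by
  have h1 : HasFDerivAt (fun x : M2 × E => (σ x.2, x.1)) _ (1, v) :=
    (HasFDerivAt.comp (f := fun x : M2 × E => x.2) (1, v)
      (h.differentiableAt (by simp)).hasFDerivAt hasFDerivAt_snd).prodMk hasFDerivAt_fst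
  have h2 := HasFDerivAt.comp (f := fun x : M2 × E => (σ x.2, x.1)) (1, v)
    ((an_act (d := d) (N := N)).differentiable (by simp) (σ v, 1)).hasFDerivAt h1
  exact (congrArg (· (ξ, u)) h2.fderiv).trans (fd_act (σ v) _ ξ)

theorem crv_of (hd : 0 < d) {g : M2} (h : Crv P (act a g)) : Crv P a := by
  have h1 : IsUnit g.det := (det_ne hd h.nz).isUnit
  have h2 := h.act (g := g⁻¹) (Matrix.isUnit_nonsing_inv_det g h1).ne_zero
  rwa [act_act, Matrix.mul_nonsing_inv g h1, act_one] at h2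

theorem data {V : Mf n} {pt : Cm N → V.X} (hC : Cone V P e pt) (hd : 0 < d) (hG : Gen P a)
    (hc : CD P D a) (hk : k + 4 = D) :
    ∃ (σ : Cm k → BF d N) (β : BF d N → M2 × Cm k), ContDiffAt ℂ ω σ 0 ∧ σ 0 = a ∧
      ContDiffAt ℂ ω β a ∧ (∀ᶠ v in 𝓝 0, Crv P (σ v) ∧ finrank ℂ (Tg P (σ v)) ≤ D) ∧
      (∀ᶠ x : M2 × Cm k in 𝓝 (1, 0), β (act (σ x.2) x.1) = x) ∧
      ∀ᶠ b in 𝓝 a, Crv P b → b = act (σ (β b).2) (β b).1 := by
  have hP := hC.hom
  obtain ⟨S, hS⟩ := (Tg P a).exists_isCompl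
  have hS2 := Submodule.finrank_add_eq_of_isCompl hS
  obtain ⟨ι, hι1, hι2⟩ := lin1 (k := k) (Tg P a) (infL a) (free P a hd hc.1).1
    (inf_mem (hc.1.pv hP)) (by rw [hc.2, rk4, hk])
  have hA : ∀ a' b : BF d N, fderiv ℂ (Psi P e) a' b = 0 ↔ b ∈ Tg P a' := fun a' b => by
    rw [mem_Tg hP, fd_Psi hP]
  obtain ⟨q0, hq0⟩ := ((fderiv ℂ (Psi P e) a).toLinearMap ∘ₗ S.subtype).exists_leftInverse_of_injective
    (LinearMap.ker_eq_bot'.2 fun s h => Subtype.ext
      (Submodule.disjoint_def.1 hS.disjoint _ ((hA a s).1 h) s.2))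
  let q : BF (d * e) r →L[ℂ] S := LinearMap.toContinuousLinearMap q0
  have hq : ∀ s : S, q (fderiv ℂ (Psi P e) a s) = s := fun s => congrArg (· s) hq0
  have hq1 : ∀ t ∈ Tg P a, ∀ s : S, q (fderiv ℂ (Psi P e) a (t + s)) = s := fun t ht s => by
    rw [map_add, (hA a t).2 ht, zero_add, hq]
  have hq2 : ∀ b, q (dPsi P e a b) = 0 → b ∈ Tg P a := fun b h => by
    obtain ⟨t, ht, s, hs, rfl⟩ := Submodule.mem_sup.1 (hS.sup_eq_top.symm ▸ Submodule.mem_top :
      b ∈ Tg P a ⊔ S)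
    rw [← fd_Psi hP, hq1 t ht ⟨s, hs⟩] at h
    rwa [show s = 0 from congrArg Subtype.val h, add_zero]
  let lam : Cm k × S →L[ℂ] BF d N := ι.coprod S.subtypeL
  have hl : ContDiff ℂ ω fun x => a + lam x := contDiff_const.add lam.contDiff
  have dl : ∀ x, HasFDerivAt (fun x => a + lam x) lam x := fun x => lam.hasFDerivAt.const_add a
  have l0 : a + lam 0 = a := by rw [map_zero, add_zero]
  let θ : Cm k × S → Cm k × S := fun x => (x.1, q (Psi P e (a + lam x)))
  have hθ : ContDiff ℂ ω θ := contDiff_fst.prodMk (q.contDiff.comp ((an_Psi P e).comp hl))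
  have dθ : ∀ x y, fderiv ℂ θ x y = (y.1, q (fderiv ℂ (Psi P e) (a + lam x) (lam y))) :=
    fun x y => congrArg (· y) (hasFDerivAt_fst.prodMk (q.hasFDerivAt.comp x (HasFDerivAt.comp
      (f := fun x => a + lam x) x ((an_Psi P e).differentiable (by simp) _).hasFDerivAt
      (dl x)))).fderiv
  have θ0 : θ 0 = 0 := Prod.ext rfl (by
    show q (Psi P e (a + lam 0)) = 0
    rw [l0, hc.1.psi hP, map_zero])
  obtain ⟨θ', t1, t2, t3, t4⟩ := ift (x := 0) (y := 0) hθ.contDiffAt (fun y h => by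
    rw [dθ, l0] at h
    exact Prod.ext (Prod.ext_iff.1 h).1 ((hq1 _ (hι1 y.1) y.2).symm.trans (Prod.ext_iff.1 h).2))
    rfl θ0
  let α : M2 × (Cm k × S) → BF d N := fun x => act (a + lam x.2) x.1
  obtain ⟨α', a1, a2, a3, a4⟩ := ift (f := α) (x := (1, 0)) (y := a)
    (an_act' (hl.comp contDiff_snd).contDiffAt contDiffAt_fst) (fun y h => by
      have h1 := (fd_m (σ := fun x => a + lam x) (v := 0) hl.contDiffAt y.1 y.2).symm.trans h
      rw [(dl 0).fderiv, l0] at h1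
      have h2 : ι y.2.1 + inf a y.1 + y.2.2 = 0 := (add_right_comm _ _ _).trans h1
      have h3 : (y.2.2 : BF d N) = 0 := Submodule.disjoint_def.1 hS.disjoint _
        (eq_neg_of_add_eq_zero_right h2 ▸ neg_mem (add_mem (hι1 _) (inf_mem (hc.1.pv hP) _))) y.2.2.2
      rw [h3, add_zero] at h2
      exact Prod.ext (hι2 _ _ h2).1 (Prod.ext (hι2 _ _ h2).2 (Subtype.ext h3)))
    (by rw [finrank_prod, finrank_prod, rk4, finrank_fin_fun, ← hS2, hc.2]; omega)
    (by simp only [α, l0, act_one])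
  let s : Cm k → Cm k × S := fun v => θ' (v, 0)
  have s1 : ContDiffAt ℂ ω s 0 := ContDiffAt.comp (f := fun v : Cm k => (v, (0 : S))) 0 t1
    (contDiffAt_id.prodMk contDiffAt_const)
  have s2 : Tendsto s (𝓝 0) (𝓝 0) := by
    have h := s1.continuousAt.tendsto
    rwa [show s 0 = 0 from t2] at h
  have s3 : ∀ᶠ v in 𝓝 0, θ (s v) = (v, 0) :=
    (Continuous.tendsto' (f := fun v : Cm k => (v, (0 : S))) (by fun_prop) 0 0 rfl).eventually t4
  have s4 : Tendsto (fun v => a + lam (s v)) (𝓝 0) (𝓝 a) :=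
    (hl.continuous.tendsto' 0 a l0).comp s2
  have s5 : Tendsto θ (𝓝 0) (𝓝 0) := hθ.continuous.tendsto' 0 0 θ0
  refine ⟨fun v => a + lam (s v), fun b => ((α' b).1, (α' b).2.1), hl.contDiffAt.comp 0 s1,
    (congrArg (fun y => a + lam y) t2).trans l0, a1.fst.prodMk a1.snd.fst, ?_, ?_, ?_⟩
  · filter_upwards [s3, s4.eventually (smo_of tub surj V P pt a hC hc.1 hG S q hq2),
      s2.eventually t3.eventually_nhds, (s5.comp s2).eventually (t1.eventually (by simp))]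
      with v h1 h2 h3 h4
    refine ⟨h2 (congrArg Prod.snd h1), ?_⟩
    have h5 := Submodule.finrank_add_finrank_le_of_disjoint (s := Tg P (a + lam (s v))) (t := S)
      (Submodule.disjoint_def.2 fun b hb hb' => congrArg (fun y : Cm k × S => (y.2 : BF d N))
        (fd_left hθ.contDiffAt h4 h3 (v := (0, ⟨b, hb'⟩)) (by
          rw [dθ, show lam (0, ⟨b, hb'⟩) = b by simp [lam], (hA _ b).2 hb, map_zero]
          rfl)))
    rw [← hS2, hc.2] at h5
    omega
  · have h1 : Tendsto (fun x : M2 × Cm k => (x.1, s x.2)) (𝓝 (1, 0)) (𝓝 (1, 0)) :=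
      (continuous_fst.tendsto _).prodMk_nhds (s2.comp (continuous_snd.tendsto (1, 0)))
    filter_upwards [h1.eventually a3, (continuous_snd.tendsto ((1 : M2), (0 : Cm k))).eventually s3]
      with x h2 h3
    have h4 : α' (act (a + lam (s x.2)) x.1) = (x.1, s x.2) := h2
    rw [h4]
    exact Prod.ext rfl (congrArg Prod.fst h3)
  · have h1 : Tendsto (fun b => (α' b).2) (𝓝 a) (𝓝 0) := by
      have h := a1.continuousAt.snd.tendsto
      rwa [a2] at h
    filter_upwards [a4, h1.eventually t3] with b h2 h3 hb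
    have h4 : Crv P (a + lam (α' b).2) := crv_of hd (g := (α' b).1) (by rw [← h2] at hb; exact hb)
    have h5 : s (α' b).2.1 = (α' b).2 := Eq.trans (congrArg θ' (Prod.ext rfl (by
      show 0 = q (Psi P e (a + lam (α' b).2))
      rw [h4.psi hP, map_zero]) : ((α' b).2.1, 0) = θ (α' b).2)) h3
    rw [h5]
    exact h2.symm

end Slc

open Slc in
theorem slc : SLC := by
  intro n N r e d D k V P pt a hC hd hL hG hc hk
  obtain ⟨σ, β, h1, h2, h3, h4, h5, h6⟩ := data hC hd hG hc hk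
  have hP := hC.hom
  have t1 : Tendsto σ (𝓝 0) (𝓝 a) := h2 ▸ h1.continuousAt.tendsto
  have t2 : Tendsto (fun v : Cm k => ((1 : M2), v)) (𝓝 0) (𝓝 (1, 0)) :=
    Continuous.tendsto (f := fun v : Cm k => ((1 : M2), v)) (by fun_prop) 0
  obtain ⟨G, g1, -, g3⟩ := prop_ a a hd hc.1.nz hc.1.nz
  have t3 : Tendsto (fun x : Cm k × Cm k => (σ x.1, σ x.2)) (𝓝 (0, 0)) (𝓝 (a, a)) :=
    (t1.comp (continuous_fst.tendsto (0, 0))).prodMk_nhds (t1.comp (continuous_snd.tendsto (0, 0)))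
  have i1 : ∀ᶠ x : Cm k × Cm k in 𝓝 (0, 0), ∀ g ∈ G, σ x.2 = act (σ x.1) g → x.1 = x.2 := by
    refine g1.eventually_forall_of_forall_eventually
      (P := fun (x : Cm k × Cm k) g => σ x.2 = act (σ x.1) g → x.1 = x.2) fun g _ => ?_
    have c1 : Tendsto (fun y : (Cm k × Cm k) × M2 => y.1.1) (𝓝 ((0, 0), g)) (𝓝 0) :=
      continuous_fst.fst.tendsto _
    have c2 : Tendsto (fun y : (Cm k × Cm k) × M2 => y.1.2) (𝓝 ((0, 0), g)) (𝓝 0) :=
      continuous_fst.snd.tendsto _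
    by_cases hg : act a g = a
    · obtain ⟨c, c3, rfl⟩ := (free P a hd hc.1).2 hL g hg
      have c4 : c ≠ 0 := fun h => by simp [h, hd.ne'] at c3
      have c5 : Tendsto (fun y : (Cm k × Cm k) × M2 => (c⁻¹ • y.2, y.1.1))
          (𝓝 ((0, 0), c • (1 : M2))) (𝓝 (1, 0)) :=
        ((continuous_snd.const_smul c⁻¹).tendsto' _ _ (inv_smul_smul₀ c4 _)).prodMk_nhds c1
      filter_upwards [c5.eventually h5, (t2.comp c2).eventually h5] with y y1 y2 y3
      simp only [Function.comp, act_smul, inv_pow, c3, inv_one, one_smul, act_one] at y1 y2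
      rw [← y3, y2] at y1
      exact (congrArg Prod.snd y1).symm
    · have c3 : Tendsto (fun y : (Cm k × Cm k) × M2 => (act (σ y.1.1) y.2, σ y.1.2))
          (𝓝 ((0, 0), g)) (𝓝 (act a g, a)) :=
        ((an_act.continuous.tendsto (a, g)).comp ((t1.comp c1).prodMk_nhds
          (continuous_snd.tendsto _))).prodMk_nhds (t1.comp c2)
      filter_upwards [c3.eventually (isClosed_diagonal.isOpen_compl.mem_nhds hg)] with y y1 y2
      exact absurd y2.symm y1
  have i2 : ∀ᶠ x : Cm k × Cm k in 𝓝 (0, 0), ∀ g, σ x.2 = act (σ x.1) g → x.1 = x.2 := by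
    filter_upwards [i1, t3.eventually g3] with x x1 x2 g hg using x1 g (x2 g hg) hg
  rw [nhds_prod_eq] at i2
  obtain ⟨O, o1, o2⟩ := (eventually_prod_self_iff
    (r := fun v v' => ∀ g, σ v' = act (σ v) g → v = v')).1 i2
  obtain ⟨B, b1, b2, b3⟩ := eventually_nhds_iff.1 ((show ∀ᶠ v in 𝓝 0, v ∈ O from o1).and
    ((h1.eventually (by simp)).and (h4.eventually_nhds.and ((t1.eventually (h3.eventually
      (by simp))).and ((t2.eventually h5.eventually_nhds).and (t1.eventually h6.eventually_nhds))))))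
  have tg : ∀ v ∈ B, ∀ u, fderiv ℂ σ v u ∈ Tg P (σ v) := fun v hv u => by
    obtain ⟨-, k1, k2, -⟩ := b1 v hv
    have k3 : (Psi P e ∘ σ) =ᶠ[𝓝 v] fun _ => 0 := k2.mono fun _ h => h.1.psi hP
    have k4 := congrArg (· u) (k3.fderiv_eq (𝕜 := ℂ))
    rw [fderiv_comp v ((an_Psi P e).differentiable (by simp) _) (k1.differentiableAt (by simp))]
      at k4
    rw [mem_Tg hP, ← fd_Psi hP]
    simpa using k4
  have ind : ∀ v ∈ B, ∀ ξ u, inf (σ v) ξ + fderiv ℂ σ v u = 0 → ξ = 0 ∧ u = 0 := fun v hv ξ u h => by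
    obtain ⟨-, k1, -, k2, k3, -⟩ := b1 v hv
    exact Prod.ext_iff.1 (fd_left (f := fun x : M2 × Cm k => act (σ x.2) x.1) (x := (1, v))
      (an_act' (ContDiffAt.comp (f := fun x : M2 × Cm k => x.2) (1, v) k1 contDiffAt_snd)
        contDiffAt_fst) (by rwa [act_one]) k3 (v := (ξ, u)) ((fd_m k1 ξ u).trans ((add_comm _ _).trans h)))
  have rg : ∀ v ∈ B, LinearMap.range ((infL (σ v)).coprod (fderiv ℂ σ v).toLinearMap) =
      Tg P (σ v) ∧ finrank ℂ (Tg P (σ v)) = D := fun v hv => by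
    obtain ⟨-, -, k2, -⟩ := b1 v hv
    have k3 : LinearMap.range ((infL (σ v)).coprod (fderiv ℂ σ v).toLinearMap) ≤ Tg P (σ v) := by
      rintro _ ⟨x, rfl⟩
      exact add_mem (inf_mem (k2.self_of_nhds.1.pv hP) _) (tg v hv _)
    have k4 := LinearMap.finrank_range_of_inj (f := (infL (σ v)).coprod (fderiv ℂ σ v).toLinearMap)
      ((injective_iff_map_eq_zero _).2 fun x h => Prod.ext_iff.2 (ind v hv x.1 x.2 h))
    rw [finrank_prod, rk4, finrank_fin_fun] at k4
    have k5 := Submodule.finrank_mono k3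
    have k6 := k2.self_of_nhds.2
    exact ⟨Submodule.eq_of_le_of_finrank_le k3 (by omega), by omega⟩
  refine ⟨B, σ, b2, b3, h2, fun v hv => (b1 v hv).2.1.analyticAt,
    fun v hv => ⟨(b1 v hv).2.2.1.self_of_nhds.1, (rg v hv).2⟩, tg, fun v hv b hb => ?_, ind,
    fun v hv v' hv' => o2 v (b1 v hv).1 v' (b1 v' hv').1, fun v hv => ?_⟩
  · obtain ⟨x, hx⟩ : b ∈ LinearMap.range _ := (rg v hv).1.symm ▸ hb
    exact ⟨x.1, x.2, hx.symm⟩
  · obtain ⟨-, -, -, k2, k3, k4⟩ := b1 v hv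
    have k5 := k3.self_of_nhds
    rw [act_one] at k5
    exact ⟨fun b => (β b).2, fun b => (β b).1, k2.snd.analyticAt, k2.fst.analyticAt,
      congrArg Prod.snd k5, congrArg Prod.fst k5, k4⟩

theorem Slice.mono {N r d D k : ℕ} {P : Eqs r N} {a : BF d N} {B B' : Set (Cm k)}
    {σ : Cm k → BF d N} (h : Slice P D a B σ) (h1 : IsOpen B') (h2 : 0 ∈ B') (h3 : B' ⊆ B) :
    Slice P D a B' σ :=
  ⟨h1, h2, h.zero, fun v hv => h.an v (h3 hv), fun v hv => h.cd v (h3 hv),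
    fun v hv => h.tg v (h3 hv), fun v hv => h.span v (h3 hv), fun v hv => h.ind v (h3 hv),
    fun v hv v' hv' => h.inj v (h3 hv) v' (h3 hv'), fun v hv => h.loc v (h3 hv)⟩

end Vale.Agent.P280Z.Mp
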