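import Vale.Agent.P280Z.Mp.Quo2
import Vale.Agent.P280Z.Mp.Slc
import Vale.Agent.P280Z.Mp.Esb

/-!
# P280, the space of rational curves of minimal degree and the universal curve
-/

open scoped Manifold ContDiff Topology Matrix Matrix.Norms.Elementwise
open Set Filter Function
open Vale.Agent.P272.K Vale.Agent.P281Z
open Vale.Agent.P280Z.Pu (ap p1 p2)
open Vale.Agent.P280Z.Pu.PuF (p1_ap p2_ap ap_eta cd_ap)

noncomputable section

namespace Vale.Agent.P280Z.Mp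

namespace Asm

variable {n N r e d D k : ℕ} {P : Eqs r N}

/-- the same unparametrised curve -/
def RK (a a' : BF d N) : Prop := ∃ g : M2, a' = act a g

/-- the same point on the same unparametrised curve -/
def RU (q q' : BF d N × Cm 2) : Prop := ∃ (g : M2) (c : ℂ), q'.1 = act q.1 g ∧ g *ᵥ q'.2 = c • q.2

theorem act_inv (a : BF d N) {g : M2} (hg : g.det ≠ 0) : act (act a g) g⁻¹ = a := by
  rw [act_act, Matrix.mul_nonsing_inv g hg.isUnit, act_one]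

theorem mv_inv {g : M2} (hg : g.det ≠ 0) (z : Cm 2) : g *ᵥ (g⁻¹ *ᵥ z) = z := by
  rw [Matrix.mulVec_mulVec, Matrix.mul_nonsing_inv g hg.isUnit, Matrix.one_mulVec]

theorem inv_mv {g : M2} (hg : g.det ≠ 0) (z : Cm 2) : g⁻¹ *ᵥ (g *ᵥ z) = z := by
  rw [Matrix.mulVec_mulVec, Matrix.nonsing_inv_mul g hg.isUnit, Matrix.one_mulVec]

theorem inv_ne {g : M2} (hg : g.det ≠ 0) {z : Cm 2} (hz : z ≠ 0) : g⁻¹ *ᵥ z ≠ 0 := fun h =>
  hz (by rw [← mv_inv hg z, h, Matrix.mulVec_zero])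

theorem c_ne {g : M2} (hg : g.det ≠ 0) {z z' : Cm 2} {c : ℂ} (hz : z' ≠ 0) (h : g *ᵥ z' = c • z) :
    c ≠ 0 := fun h0 => hz (by rw [← inv_mv hg z', h, h0, zero_smul, Matrix.mulVec_zero])

theorem RK.refl (a : BF d N) : RK a a := ⟨1, (act_one a).symm⟩

theorem RK.symm (hd : 0 < d) {a a' : BF d N} (h' : Nz a') (h : RK a a') : RK a' a := by
  obtain ⟨g, rfl⟩ := h
  exact ⟨g⁻¹, (act_inv a (det_ne hd h')).symm⟩

theorem RK.trans {a a' a'' : BF d N} (h : RK a a') (h' : RK a' a'') : RK a a'' := by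
  obtain ⟨g, rfl⟩ := h
  obtain ⟨g', rfl⟩ := h'
  exact ⟨g * g', act_act a g g'⟩

theorem RU.refl (q : BF d N × Cm 2) : RU q q :=
  ⟨1, 1, (act_one _).symm, by rw [Matrix.one_mulVec, one_smul]⟩

theorem RU.symm (hd : 0 < d) {q q' : BF d N × Cm 2} (h' : Nz q'.1) (hz : q'.2 ≠ 0) (h : RU q q') :
    RU q' q := by
  obtain ⟨g, c, h1, h2⟩ := h
  have hg := det_ne hd (h1 ▸ h')
  refine ⟨g⁻¹, c⁻¹, by rw [h1, act_inv _ hg], ?_⟩
  rw [← inv_mv hg q'.2, h2, Matrix.mulVec_smul, inv_smul_smul₀ (c_ne hg hz h2)]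

theorem RU.trans {q q' q'' : BF d N × Cm 2} (h : RU q q') (h' : RU q' q'') : RU q q'' := by
  obtain ⟨g, c, h1, h2⟩ := h
  obtain ⟨g', c', h3, h4⟩ := h'
  refine ⟨g * g', c' * c, by rw [h3, h1, act_act], ?_⟩
  rw [← Matrix.mulVec_mulVec, h4, Matrix.mulVec_smul, h2, mul_smul]

theorem cl0 (hd : 0 < d) {T : Type} [TopologicalSpace T] {a a' : T → BF d N} {f : T × M2 → ℂ}
    (ha : Continuous a) (ha' : Continuous a') (hf : Continuous f) {t : T} (h1 : Nz (a t))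
    (h2 : Nz (a' t)) (h : ∃ᶠ s in 𝓝 t, ∃ g, a' s = act (a s) g ∧ f (s, g) = 0) :
    ∃ g, a' t = act (a t) g ∧ f (t, g) = 0 := by
  by_contra h3
  obtain ⟨G, g1, -, g3⟩ := prop_ (a t) (a' t) hd h1 h2
  have h4 : IsClosed {y : T × M2 | a' y.1 = act (a y.1) y.2 ∧ f y = 0} :=
    (isClosed_eq (ha'.comp continuous_fst) (Continuous.comp (f := fun y : T × M2 => (a y.1, y.2))
      an_act.continuous ((ha.comp continuous_fst).prodMk continuous_snd))).inter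
      (isClosed_eq hf continuous_const)
  refine h ?_
  filter_upwards [((ha.prodMk ha').tendsto t).eventually g3,
    g1.eventually_forall_of_forall_eventually (x₀ := t)
      (P := fun s g => ¬ (a' s = act (a s) g ∧ f (s, g) = 0)) fun g _ =>
      h4.isOpen_compl.mem_nhds fun k => h3 ⟨g, k⟩] with s h5 h6
  exact fun ⟨g, k⟩ => h6 g (h5 g k.1) k

theorem lf_zero {y z : Cm 2} (hz : z ≠ 0) (h : lf y z = 0) : ∃ c : ℂ, y = c • z := by
  have h1 := sub_eq_zero.1 h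
  by_cases h0 : z 0 = 0
  · have h2 : z 1 ≠ 0 := fun k => hz (funext (Fin.forall_fin_two.2 ⟨h0, k⟩))
    rw [h0, mul_zero, mul_eq_zero, or_iff_left h2] at h1
    exact ⟨y 1 / z 1, funext (Fin.forall_fin_two.2 ⟨by simp [h0, h1], by simp [h2]⟩)⟩
  · refine ⟨y 0 / z 0, funext (Fin.forall_fin_two.2 ⟨by simp [h0], ?_⟩)⟩
    rw [Pi.smul_apply, smul_eq_mul, div_mul_eq_mul_div, h1, mul_div_assoc, div_self h0, mul_one]

theorem zz_self (j : Fin 2) (t : ℂ) : zz j t j = 1 := if_pos rfl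

theorem zz_rev (j : Fin 2) (t : ℂ) : zz j t j.rev = t := if_neg (by revert j; decide)

theorem zz_div {y : Cm 2} {j : Fin 2} (h : y j ≠ 0) : y = y j • zz j (y j.rev / y j) := by
  funext i
  by_cases hi : i = j
  · rw [hi, Pi.smul_apply, zz_self, smul_eq_mul, mul_one]
  · have h1 : i = j.rev := (by decide : ∀ i j : Fin 2, i ≠ j → i = j.rev) i j hi
    rw [h1, Pi.smul_apply, zz_rev, smul_eq_mul, mul_div_cancel₀ _ h]

theorem key0 {a a0 : BF d N} {B : Set (Cm k)} {σ : Cm k → BF d N} (h : Slice P D a0 B σ)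
    {v : Cm k} (hv : v ∈ B) {g : M2} (hg : g.det ≠ 0) (e : σ v = act a g) :
    ∃ (τ : BF d N → Cm k) (γ : BF d N → M2), AnalyticAt ℂ τ a ∧ AnalyticAt ℂ γ a ∧ τ a = v ∧
      γ a = 1 ∧ ∀ᶠ b in 𝓝 a, Crv P b → act b g = act (σ (τ b)) (γ b) := by
  obtain ⟨vv, gg, h1, h2, h3, h4, h5⟩ := h.loc v hv
  rw [e] at h1 h2 h3 h4 h5
  have h6 : AnalyticAt ℂ (fun b => act b g) a :=
    (an_act' contDiffAt_id contDiffAt_const).analyticAt
  exact ⟨fun b => vv (act b g), fun b => gg (act b g), h1.comp (f := fun b => act b g) h6,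
    h2.comp (f := fun b => act b g) h6, h3, h4,
    (h6.continuousAt.tendsto.eventually h5).mono fun b hb hc => hb (hc.act hg)⟩

end Asm

open Asm in
theorem maps : MAPS := by
  intro n N r V P e pt d D k M hC hd hL hG hk cd inv opn ⟨a0, h0⟩
  have nz : ∀ a, M a → Nz a := fun a h => (cd a h).1.nz
  have hS : ∀ a : {a // M a}, ∃ (B : Set (Cm k)) (σ : Cm k → BF d N), Slice P D a.1 B σ ∧
      ∀ v ∈ B, M (σ v) := fun a => by
    obtain ⟨B, σ, h⟩ := slc V P pt a.1 hC hd hL (hG _ (cd _ a.2).1) (cd _ a.2) hk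
    have h1 : Tendsto σ (𝓝 0) (𝓝 a.1) := h.zero ▸ (h.an 0 h.mem).continuousAt.tendsto
    obtain ⟨B', b1, b2, b3⟩ := eventually_nhds_iff.1
      ((h1.eventually (opn _ (cd _ a.2).1)).and (h.opn.mem_nhds h.mem))
    exact ⟨B', σ, h.mono b2 b3 fun v hv => (b1 v hv).2, fun v hv =>
      ((b1 v hv).1 (h.cd v (b1 v hv).2).1).2 a.2⟩
  choose B σ hS hM using hS
  obtain ⟨C, c1, c2, c3⟩ := cpt P hC.hom hd hL
  have c4 : IsCompact (C ∩ {a | M a}) := c1.of_isClosed_subset (isClosed_iff_frequently.2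
    fun x hx => by
      have h1 := c1.isClosed.mem_of_frequently_of_tendsto (hx.mono fun _ h => h.1) tendsto_id
      obtain ⟨b, b1, b2⟩ := (hx.and_eventually (opn x (c2 x h1))).exists
      exact ⟨h1, (b2 (c2 b b1.1)).1 b1.2⟩) inter_subset_left
  have ca : ∀ g : M2, Continuous fun b : BF d N => act b g := fun g =>
    Continuous.comp (f := fun b : BF d N => (b, g)) an_act.continuous (by fun_prop)
  obtain ⟨K, pk, χ, k1, k2, k3, k4, k5, k6⟩ := quo2 {a | M a} RK B σ ⟨a0, h0⟩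
    (fun a _ => RK.refl a) (fun _ a' h => RK.symm hd (nz a' h)) (fun _ _ _ => RK.trans)
    (fun a a' h ⟨g, hg⟩ => ⟨fun b => act b g, ca g, hg.symm, fun b hb =>
      ⟨inv b g hb (det_ne hd (hg ▸ nz a' h)), g, rfl⟩⟩)
    (fun a h a' h' hf => (cl0 hd (f := fun _ => 0) continuous_fst continuous_snd continuous_const
      (t := (a, a')) (nz a h) (nz a' h') (hf.mono fun _ ⟨g, hg⟩ => ⟨g, hg, rfl⟩)).imp fun _ h => h.1)
    ⟨_, inter_subset_right, c4, fun a h => by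
      obtain ⟨g, g1, g2⟩ := c3 a (cd a h).1
      exact ⟨_, ⟨g2, inv a g h g1⟩, g, rfl⟩⟩
    (fun i => (hS i).opn) (fun i => (hS i).an) hM
    (fun i v hv v' hv' ⟨g, hg⟩ => (hS i).inj v hv v' hv' g hg)
    (fun a h => ⟨⟨a, h⟩, 0, (hS _).mem, (hS ⟨a, h⟩).zero.symm ▸ RK.refl a⟩)
    (fun i v hv a h ⟨g, hg⟩ => by
      have h1 := det_ne hd (hg ▸ nz _ (hM i v hv))
      obtain ⟨τ, γ, t1, -, t3, -, t5⟩ := key0 (hS i) hv h1 hg
      exact ⟨τ, t1, t3, t5.mono fun b hb hb' => RK.trans ⟨g, rfl⟩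
        (RK.symm hd ((nz b hb').act h1) ⟨_, hb (cd b hb').1⟩)⟩)
  have a1 : ContDiff ℂ ω (p1 k 1) := (EsbH.L1 k).contDiff
  have a2 : ∀ j, ContDiff ℂ ω fun u : Cm (k + 1) => zz j (p2 k 1 u 0) := fun j => by
    rw [EsbH.zz_eq]
    exact contDiff_const.add (EsbH.L2 k j).contDiff
  obtain ⟨U, pu, c, u1, u2, u3, u4, u5, u6⟩ := quo2 {q : BF d N × Cm 2 | M q.1 ∧ q.2 ≠ 0} RU
    (fun i : {a // M a} × Fin 2 => p1 k 1 ⁻¹' B i.1)
    (fun i w => (σ i.1 (p1 k 1 w), zz i.2 (p2 k 1 w 0))) ⟨(a0, zz 0 0), h0, EsbH.zz_ne 0 0⟩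
    (fun q _ => RU.refl q) (fun _ q' h => RU.symm hd (nz _ h.1) h.2) (fun _ _ _ => RU.trans)
    (fun q q' h hq => by
      obtain ⟨g, c, h1, h2⟩ := hq
      have hg := det_ne hd (h1 ▸ nz _ h.1)
      have hc := c_ne hg h.2 h2
      refine ⟨fun y => (act y.1 g, c • g⁻¹ *ᵥ y.2), ((ca g).comp continuous_fst).prodMk
        ((continuous_const.matrix_mulVec continuous_snd).const_smul c), Prod.ext h1.symm ?_,
        fun y hy => ⟨⟨inv _ g hy.1 hg, smul_ne_zero hc (inv_ne hg hy.2)⟩, g, c, rfl, ?_⟩⟩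
      · show c • g⁻¹ *ᵥ q.2 = q'.2
        rw [← Matrix.mulVec_smul, ← h2, inv_mv hg]
      · rw [Matrix.mulVec_smul, mv_inv hg])
    (fun q h q' h' hf => by
      obtain ⟨g, g1, g2⟩ := cl0 hd (a := fun t : (BF d N × Cm 2) × BF d N × Cm 2 => t.1.1)
        (a' := fun t => t.2.1) (f := fun y => lf (y.2 *ᵥ y.1.2.2) y.1.1.2) (by fun_prop)
        (by fun_prop) (by
          have h1 : Continuous fun y : ((BF d N × Cm 2) × BF d N × Cm 2) × M2 => y.2 *ᵥ y.1.2.2 :=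
            continuous_snd.matrix_mulVec (by fun_prop)
          unfold lf
          fun_prop) (t := (q, q')) (nz _ h.1) (nz _ h'.1)
        (hf.mono fun t ⟨g, c, h1, h2⟩ => ⟨g, h1, by simp only [h2, lf, Pi.smul_apply, smul_eq_mul]; ring⟩)
      obtain ⟨c, hc⟩ := lf_zero h.2 g2
      exact ⟨g, c, g1, hc⟩)
    ⟨(C ∩ {a | M a}) ×ˢ Metric.sphere 0 1, fun q h => ⟨h.1.2, fun k => by simpa [k] using h.2⟩,
      c4.prod (isCompact_sphere 0 1), fun q h => by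
      obtain ⟨g, g1, g2⟩ := c3 _ (cd _ h.1).1
      have h1 := inv_ne g1 h.2
      exact ⟨(act q.1 g, (‖g⁻¹ *ᵥ q.2‖ : ℂ)⁻¹ • g⁻¹ *ᵥ q.2), ⟨⟨g2, inv _ g h.1 g1⟩,
        by rw [mem_sphere_zero_iff_norm, norm_smul, norm_inv, Complex.norm_real, norm_norm,
          inv_mul_cancel₀ (norm_ne_zero_iff.2 h1)]⟩, g, _, rfl, by rw [Matrix.mulVec_smul, mv_inv g1]⟩⟩
    (fun i => (hS i.1).opn.preimage a1.continuous)
    (fun i w hw => (((hS i.1).an _ hw).comp a1.contDiffAt.analyticAt).prod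
      (a2 i.2).contDiffAt.analyticAt)
    (fun i w hw => ⟨hM i.1 _ hw, EsbH.zz_ne _ _⟩)
    (fun i w hw w' hw' ⟨g, c, h1, h2⟩ => by
      have h3 := (hS i.1).inj _ hw _ hw' g h1
      obtain ⟨c', c5, rfl⟩ := (free P _ hd (cd _ (hM i.1 _ hw)).1).2 hL g
        (h1.symm.trans (congrArg (σ i.1) h3.symm))
      have h4 : c' ≠ 0 := fun h => by simp [h, hd.ne'] at c5
      have h5 := congrFun h2 i.2
      have h6 := congrFun h2 i.2.rev
      simp only [Matrix.smul_mulVec, Matrix.one_mulVec, Pi.smul_apply, zz_self, zz_rev,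
        smul_eq_mul, mul_one] at h5 h6
      rw [← ap_eta w, ← ap_eta w', h3]
      exact congrArg _ (funext fun l => by
        rw [Subsingleton.elim l 0]
        exact (mul_left_cancel₀ h4 (h5 ▸ h6)).symm))
    (fun q h => by
      obtain ⟨j, hj⟩ := ne_iff.1 h.2
      refine ⟨(⟨q.1, h.1⟩, j), ap 0 fun _ => q.2 j.rev / q.2 j, ?_, 1, (q.2 j)⁻¹, ?_, ?_⟩
      · rw [mem_preimage, p1_ap]
        exact (hS _).mem
      · rw [p1_ap, act_one]
        exact (hS ⟨q.1, h.1⟩).zero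
      · rw [p2_ap, Matrix.one_mulVec, eq_inv_smul_iff₀ hj]
        exact (zz_div hj).symm)
    (fun i w hw q h ⟨g, c, h1, h2⟩ => by
      dsimp only at h1 h2
      have hg := det_ne hd (h1 ▸ nz _ (hM i.1 _ hw))
      have hc := c_ne hg (EsbH.zz_ne _ _) h2
      obtain ⟨τ, γ, t1, t2, t3, t4, t5⟩ := key0 (hS i.1) hw hg h1
      let Y : BF d N × Cm 2 → Cm 2 := fun y => γ y.1 *ᵥ (g⁻¹ *ᵥ y.2)
      have y1 : ContDiffAt ℂ ω Y q := an_mv' (t2.contDiffAt.comp q contDiffAt_fst)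
        (an_mv' contDiffAt_const contDiffAt_snd)
      have y2 : Y q = c⁻¹ • zz i.2 (p2 k 1 w 0) := by
        simp only [Y, t4, Matrix.one_mulVec]
        rw [eq_inv_smul_iff₀ hc, ← Matrix.mulVec_smul, ← h2, inv_mv hg]
      have y3 : Y q i.2 ≠ 0 := by
        rw [y2, Pi.smul_apply, zz_self, smul_eq_mul, mul_one]
        exact inv_ne_zero hc
      refine ⟨fun y => ap (τ y.1) fun _ => Y y i.2.rev / Y y i.2, (ContDiffAt.comp
        (f := fun y : BF d N × Cm 2 => (τ y.1, fun _ : Fin 1 => Y y i.2.rev / Y y i.2)) q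
        cd_ap.contDiffAt ((t1.contDiffAt.comp q contDiffAt_fst).prodMk (contDiffAt_pi.2 fun _ =>
          (contDiffAt_pi.1 y1 _).div (contDiffAt_pi.1 y1 _) y3))).analyticAt, ?_, ?_⟩
      · refine Eq.trans ?_ (ap_eta w)
        dsimp only
        rw [t3, y2]
        exact congrArg _ (funext fun l => by
          rw [Subsingleton.elim l 0]
          simp only [Pi.smul_apply, zz_self, zz_rev, smul_eq_mul, mul_one]
          exact mul_div_cancel_left₀ _ (inv_ne_zero hc))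
      · filter_upwards [(continuous_fst.tendsto q).eventually t5,
          (contDiffAt_pi.1 y1 i.2).continuousAt.eventually_ne y3] with y h3 h4 hy
        rw [p1_ap, p2_ap]
        exact RU.trans (q' := (act y.1 g, g⁻¹ *ᵥ y.2)) ⟨g, 1, rfl, by rw [mv_inv hg, one_smul]⟩
          (RU.symm hd ((nz _ hy.1).act hg) (inv_ne hg hy.2)
            ⟨γ y.1, _, h3 (cd _ hy.1).1, zz_div h4⟩))
  choose rp r1 r2 using u2
  have r3 : ∀ a z, M a → z ≠ 0 → RU (a, z) (rp (pu (a, z))) := fun a z h hz =>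
    (u3 _ ⟨h, hz⟩ _ (r1 _)).1 (r2 _).symm
  have r4 : ∀ a z, M a → z ≠ 0 → pk (rp (pu (a, z))).1 = pk a := fun a z h hz => by
    obtain ⟨g, -, h1, -⟩ := r3 a z h hz
    exact ((k3 _ h _ (r1 _).1).2 ⟨g, h1⟩).symm
  have r5 : ∀ a z, M a → z ≠ 0 → pt (ev (rp (pu (a, z))).1 (rp (pu (a, z))).2) = pt (ev a z) :=
    fun a z h hz => by
    obtain ⟨g, c, h1, h2⟩ := r3 a z h hz
    have hc := c_ne (det_ne hd (h1 ▸ nz _ (r1 _).1)) (r1 _).2 h2
    rw [h1, ev_act, h2, ev_arg, hC.smul _ _ ((cd a h).1 z hz) (pow_ne_zero d hc)]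
  have ch : ∀ x : U.X, ∃ i, At (c i) x ∧ p1 k 1 (c i x) ∈ B i.1 := fun x => by
    obtain ⟨i, hi⟩ : chartAt (Cm (k + 1)) x ∈ range c := u4 ▸ chart_mem_atlas _ x
    have h : At (c i) x := hi ▸ ⟨chart_mem_atlas _ x, mem_chart_source _ x⟩
    exact ⟨i, h, by have h1 := h.mem_target; rwa [(u5 i).1] at h1⟩
  have hp : ∀ x : U.X, ContMDiffAt 𝓘(ℂ, Cm (k + 1)) 𝓘(ℂ, Cm k) ω (fun x => pk (rp x).1) x ∧
      Sbm (k + 1) k (fun x => pk (rp x).1) x := fun x => by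
    obtain ⟨i, h1, h2⟩ := ch x
    have h3 : ∀ v ∈ B i.1, v ∈ (χ i.1).target := fun v hv => (k5 i.1).1.symm ▸ hv
    have h4 : p1 k 1 =ᶠ[𝓝 (c i x)] fun u => χ i.1 ((χ i.1).symm (p1 k 1 u)) := by
      filter_upwards [a1.continuous.continuousAt.eventually ((hS i.1).opn.mem_nhds h2)] with u hu
      exact ((χ i.1).right_inv (h3 _ hu)).symm
    refine hol_of h1 (F := fun u => (χ i.1).symm (p1 k 1 u)) (fun u hu => ?_) (c' := χ i.1)
      ⟨k4 ▸ mem_range_self _, (χ i.1).map_target (h3 _ h2)⟩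
      (((χ i.1).continuousAt_symm (h3 _ h2)).comp a1.continuous.continuousAt)
      (a1.contDiffAt.analyticAt.congr h4) fun v => ⟨ap v 0, ?_⟩
    · rw [(u5 i).1] at hu
      rw [(u5 i).2 u hu, r4 _ _ (hM _ _ hu) (EsbH.zz_ne _ _), (k5 i.1).2 _ hu]
    · rw [← h4.fderiv_eq]
      exact (congrArg (· (ap v 0)) ((EsbH.L1 k).fderiv (x := c i x))).trans (p1_ap v 0)
  have he : ∀ x : U.X, ContMDiffAt 𝓘(ℂ, Cm (k + 1)) 𝓘(ℂ, Cm n) ω
      (fun x => pt (ev (rp x).1 (rp x).2)) x ∧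
      Sbm (k + 1) n (fun x => pt (ev (rp x).1 (rp x).2)) x := fun x => by
    obtain ⟨i, h1, h2⟩ := ch x
    have h3 : ∀ y : V.X, At (chartAt (Cm n) y) y := fun y =>
      ⟨chart_mem_atlas _ y, mem_chart_source _ y⟩
    obtain ⟨e1, e2, e3⟩ := esb hC hd (hS i.1) i.2 h2 (hG _ (cd _ (hM _ _ h2)).1) _ (h3 _)
    refine hol_of h1 (fun u hu => ?_) (h3 _) e1 e2 e3
    rw [(u5 i).1] at hu
    rw [(u5 i).2 u hu, r5 _ _ (hM _ _ hu) (EsbH.zz_ne _ _)]
  exact ⟨⟨M, K, U, pk, fun a z => pu (a, z), fun x => pk (rp x).1,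
    fun x => pt (ev (rp x).1 (rp x).2), cd, inv, opn, fun a a' h h' => k3 a h a' h',
    fun a a' z z' h h' hz hz' => u3 (a, z) ⟨h, hz⟩ (a', z') ⟨h', hz'⟩, k2,
    fun x => ⟨_, _, (r1 x).1, (r1 x).2, r2 x⟩, r4, r5, fun x => (hp x).1, fun x => (hp x).2,
    fun x => (he x).1, fun x => (he x).2, fun a h => ⟨σ ⟨a, h⟩, χ ⟨a, h⟩, fun j => c (⟨a, h⟩, j),
      (k5 _).1.symm ▸ hS ⟨a, h⟩, k4 ▸ mem_range_self _, (k5 _).1.symm ▸ (k5 _).2,
      (k5 _).1.symm ▸ hM _, fun j => ⟨u4 ▸ mem_range_self _, (k5 _).1.symm ▸ (u5 _).1,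
        (u5 (⟨a, h⟩, j)).1.symm ▸ (u5 (⟨a, h⟩, j)).2⟩⟩,
    fun a τ c => k6 _ a τ c, fun a z τ c h1 h2 h3 h4 => u6 _ (fun s => (a s, z s)) τ c (h1.prod h2)
      (h3.and (h2.continuousAt.eventually_ne h4)), k1, u1⟩, rfl⟩

end Vale.Agent.P280Z.Mp
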