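import Vale.Agent.P280Z.Mp.Quo
import Vale.Agent.P281Z.Mf.Api

/-!
# P280, quotients of subsets of vector spaces
-/

open scoped Manifold ContDiff Topology
open Set Filter Function
open Vale.Agent.P272.K Vale.Agent.P281Z

noncomputable section

namespace Vale.Agent.P280Z.Mp

theorem quo2 {k : ℕ} {Y : Type} [NormedAddCommGroup Y] [NormedSpace ℂ Y] (Z : Set Y)
    (R : Y → Y → Prop) {ι : Type} (B : ι → Set (Cm k)) (ψ : ι → Cm k → Y) (hne : Z.Nonempty)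
    (r1 : ∀ x ∈ Z, R x x) (r2 : ∀ x, ∀ y ∈ Z, R x y → R y x) (r3 : ∀ x y z, R x y → R y z → R x z)
    (sat : ∀ x, ∀ y ∈ Z, R x y → ∃ h : Y → Y, Continuous h ∧ h x = y ∧
      ∀ x' ∈ Z, h x' ∈ Z ∧ R x' (h x'))
    (cl : ∀ x ∈ Z, ∀ y ∈ Z, (∃ᶠ q in 𝓝 (x, y), R q.1 q.2) → R x y)
    (cp : ∃ C ⊆ Z, IsCompact C ∧ ∀ x ∈ Z, ∃ y ∈ C, R x y) (op : ∀ i, IsOpen (B i))
    (an : ∀ i, ∀ v ∈ B i, AnalyticAt ℂ (ψ i) v) (mem : ∀ i, ∀ v ∈ B i, ψ i v ∈ Z)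
    (inj : ∀ i, ∀ v ∈ B i, ∀ v' ∈ B i, R (ψ i v) (ψ i v') → v = v')
    (cov : ∀ x ∈ Z, ∃ i, ∃ v ∈ B i, R x (ψ i v))
    (key : ∀ i, ∀ v ∈ B i, ∀ x ∈ Z, R x (ψ i v) → ∃ τ : Y → Cm k, AnalyticAt ℂ τ x ∧ τ x = v ∧
      ∀ᶠ y in 𝓝 x, y ∈ Z → R y (ψ i (τ y))) :
    ∃ (K : Mf k) (π : Y → K.X) (χ : ι → Chart k K.X), ContinuousOn π Z ∧
      (∀ y, ∃ x ∈ Z, π x = y) ∧ (∀ x ∈ Z, ∀ y ∈ Z, π x = π y ↔ R x y) ∧
      atlas (Cm k) K.X = range χ ∧ (∀ i, (χ i).target = B i ∧ ∀ v ∈ B i, (χ i).symm v = π (ψ i v)) ∧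
      ∀ (l : ℕ) (a : Cm l → Y) (τ : Cm l) (c : Chart k K.X), AnalyticAt ℂ a τ →
        (∀ᶠ s in 𝓝 τ, a s ∈ Z) → At c (π (a τ)) →
        ContinuousAt (fun s => π (a s)) τ ∧ AnalyticAt ℂ (fun s => c (π (a s))) τ := by
  classical
  obtain ⟨x0, h0⟩ := hne
  let mk : Y → Z := fun y => if h : y ∈ Z then ⟨y, h⟩ else ⟨x0, h0⟩
  have m1 : ∀ y ∈ Z, (mk y).1 = y := fun y h => by simp only [mk, dif_pos h]
  have m2 : ∀ x : Z, mk x.1 = x := fun x => Subtype.ext (m1 _ x.2)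
  have m3 : ContinuousOn mk Z := continuousOn_iff_continuous_domRestrict.2
    (continuous_id.congr fun x => (m2 x).symm)
  let s : Setoid Z := ⟨fun x y => R x.1 y.1, fun x => r1 _ x.2, fun {x y} => r2 _ _ y.2,
    fun {x y z} => r3 _ _ _⟩
  have nb : ∀ i, ∀ v ∈ B i, ∀ {T : Type} {f : Filter T} {τ : T → Cm k}, Tendsto τ f (𝓝 v) →
      ∀ᶠ t in f, τ t ∈ B i := fun i v hv _ _ _ h => h.eventually ((op i).mem_nhds hv)
  obtain ⟨C, c1, c2, c3⟩ := cp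
  obtain ⟨K, π, χ, q1, q2, -, q4, q5, q6⟩ := quo k Z s ι B (fun i v => mk (ψ i v))
    (fun O hO => isOpen_iff_eventually.2 fun x ⟨y, hy, hxy⟩ => by
      obtain ⟨h, h1, h2, h3⟩ := sat x.1 y.1 y.2 hxy
      have h4 : Continuous fun x' : Z => (⟨h x'.1, (h3 _ x'.2).1⟩ : Z) :=
        (h1.comp continuous_subtype_val).subtype_mk _
      filter_upwards [(h4.tendsto' x y (Subtype.ext h2)).eventually (hO.mem_nhds hy)] with x' h5
      exact ⟨_, h5, (h3 _ x'.2).2⟩)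
    (isClosed_iff_frequently.2 fun q hq => cl _ q.1.2 _ q.2.2
      ((Continuous.tendsto (f := fun q : Z × Z => (q.1.1, q.2.1)) (by fun_prop) q).frequently hq))
    ⟨Subtype.val ⁻¹' C, Topology.IsInducing.subtypeVal.isCompact_preimage' c2
      (by rwa [Subtype.range_coe]), fun x => by
        obtain ⟨y, y1, y2⟩ := c3 _ x.2
        exact ⟨⟨y, c1 y1⟩, y1, y2⟩⟩ op
    (fun i => m3.comp (fun v hv => (an i v hv).continuousAt.continuousWithinAt) (mem i))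
    (fun i v hv v' hv' h => inj i v hv v' hv' (by
      rw [← m1 _ (mem i v hv), ← m1 _ (mem i v' hv')]; exact h))
    (fun x => by
      obtain ⟨i, v, hv, h⟩ := cov _ x.2
      exact ⟨i, v, hv, by rw [← m1 _ (mem i v hv)] at h; exact h⟩)
    (fun i v hv => by
      obtain ⟨τ, t1, t2, t3⟩ := key i v hv _ (mem i v hv) (r1 _ (mem i v hv))
      have h1 : Tendsto (Subtype.val : Z → Y) (𝓝 (mk (ψ i v))) (𝓝 (ψ i v)) :=
        continuous_subtype_val.tendsto' _ _ (m1 _ (mem i v hv))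
      have h2 : Tendsto (fun x : Z => τ x.1) (𝓝 (mk (ψ i v))) (𝓝 v) :=
        (t1.continuousAt.tendsto.comp h1).mono_right (congrArg 𝓝 t2).le
      have h3 : τ (mk (ψ i v)).1 = v := by rw [m1 _ (mem i v hv), t2]
      refine ⟨fun x => τ x.1, h2.mono_right (congrArg 𝓝 h3).ge, h3, ?_⟩
      filter_upwards [h1.eventually t3, nb i v hv h2] with x h4 h5
      have h6 := h4 x.2
      rw [← m1 _ (mem i _ h5)] at h6
      exact h6)
    (fun i j v hv v' hv' h => by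
      obtain ⟨τ, t1, t2, t3⟩ := key j v' hv' _ (mem i v hv) (by
        rw [← m1 _ (mem i v hv), ← m1 _ (mem j v' hv')]; exact h)
      have h1 := (an i v hv).continuousAt.tendsto
      refine ⟨fun u => τ (ψ i u), t1.comp (an i v hv), t2, ?_⟩
      filter_upwards [h1.eventually t3, nb i v hv tendsto_id,
        nb j v' hv' (t2 ▸ t1.continuousAt.tendsto.comp h1)] with u h2 h3 h4
      show R (mk (ψ i u)).1 (mk (ψ j (τ (ψ i u)))).1
      rw [m1 _ (mem i u h3), m1 _ (mem j (τ (ψ i u)) h4)]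
      exact h2 (mem i u h3))
  have q7 : ∀ x ∈ Z, ∀ y ∈ Z, π (mk x) = π (mk y) ↔ R x y := fun x hx y hy => by
    rw [q4]
    show R (mk x).1 (mk y).1 ↔ _
    rw [m1 x hx, m1 y hy]
  refine ⟨K, fun y => π (mk y), χ, q1.comp_continuousOn m3, fun y => ?_, q7, q5, q6,
    fun l a τ c a1 a2 a3 => ?_⟩
  · obtain ⟨x, rfl⟩ := q2 y
    exact ⟨x.1, x.2, congrArg π (m2 x)⟩
  · obtain ⟨i, rfl⟩ : c ∈ range χ := q5 ▸ a3.1
    have h1 : χ i (π (mk (a τ))) ∈ B i := (q6 i).1 ▸ a3.mem_target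
    obtain ⟨ρ, t1, t2, t3⟩ := key i _ h1 _ a2.self_of_nhds ((q7 _ a2.self_of_nhds _ (mem i _ h1)).1
      (a3.left_inv.symm.trans ((q6 i).2 _ h1)))
    have h2 := a1.continuousAt.tendsto
    refine ⟨((q1.comp_continuousOn m3) _ a2.self_of_nhds).tendsto.comp
      (tendsto_nhdsWithin_iff.2 ⟨h2, a2⟩), (t1.comp a1).congr ?_⟩
    filter_upwards [h2.eventually t3, a2, nb i _ h1 (t2 ▸ t1.continuousAt.tendsto.comp h2)]
      with u h3 h4 h5
    rw [(q7 _ h4 _ (mem i _ h5)).2 (h3 h4), ← (q6 i).2 _ h5]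
    exact ((χ i).right_inv ((q6 i).1.symm ▸ h5)).symm

theorem hol_of {k p : ℕ} {K : Mf k} {W : Mf p} {f : K.X → W.X} {c : Chart k K.X} {y : K.X}
    (hc : At c y) {F : Cm k → W.X} (hF : ∀ u ∈ c.target, f (c.symm u) = F u) {c' : Chart p W.X}
    (hc' : At c' (F (c y))) (h1 : ContinuousAt F (c y))
    (h2 : AnalyticAt ℂ (fun u => c' (F u)) (c y))
    (h3 : Surjective (fderiv ℂ (fun u => c' (F u)) (c y))) :
    ContMDiffAt 𝓘(ℂ, Cm k) 𝓘(ℂ, Cm p) ω f y ∧ Sbm k p f y := by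
  have h4 : (fun u => c' (F u)) =ᶠ[𝓝 (c y)] fun u => c' (f (c.symm u)) := by
    filter_upwards [c.open_target.mem_nhds hc.mem_target] with u hu
    rw [hF u hu]
  have h5 : ContinuousAt f y := (h1.comp (c.continuousAt hc.2)).congr (by
    filter_upwards [at_near hc] with x hx
    rw [comp, ← hF _ hx.mem_target, hx.left_inv])
  rw [← hF _ hc.mem_target, hc.left_inv] at hc'
  have h6 := HolA.of_an h5 hc hc' (h2.congr h4)
  exact ⟨h6, Sbm.of_chart h6 hc hc' (by rwa [h4.fderiv_eq] at h3)⟩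

end Vale.Agent.P280Z.Mp
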